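import Vale.Agent.P092.H411.S2.Lev

/-!
P092 (helper411), Tracks 2 / 3 (letters CL), [P2-NRM] part 4: the nested chains of the torus elements
`tF .. (Pi.single 0 ± 1)` (wall 1) and `tF .. (± 1)` (wall `r`) in the shape of `pos_finalC`.
-/

set_option linter.all false

open Matrix Set Topology Filter

namespace Vale.Agent.P092.H411.S2

open Vale.Agent.P092.H303
open Vale.Agent.P092.H411.ChS (bS KS)
open Vale.Agent.P092.RC (GG)

variable {ι : Type} [Fintype ι] [DecidableEq ι] {k : Type} [NontriviallyNormedField k]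
  {σ : k →+* k} {ε : k} {J₀ : Matrix ι ι k}

theorem tF_inv (q : ℕ) {w : k} (hw : w ≠ 0) (hσw : σ w = w) (l : Fin q → ℤ) :
    (tF σ ε J₀ q hw hσw l)⁻¹ = tF σ ε J₀ q hw hσw (-l) := by
  symm
  apply eq_inv_of_mul_eq_one_left
  apply Subtype.ext
  apply Subtype.ext
  change Matrix.diagonal (dgF q ι w (-l)) * Matrix.diagonal (dgF q ι w l) = 1
  rw [diagonal_mul_diagonal, ← diagonal_one]
  congr 1
  funext x
  rcases x with (x | x) | x
  · simp only [dgF, Sum.elim_inl, Pi.neg_apply]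
    rw [← zpow_add₀ hw, neg_add_cancel, zpow_zero]
  · simp only [dgF, Sum.elim_inl, Sum.elim_inr, Pi.neg_apply]
    rw [← zpow_add₀ hw, neg_neg, add_neg_cancel, zpow_zero]
  · simp only [dgF, Sum.elim_inr, mul_one]

/-- the torus element of wall 1 commutes with the lower block -/
theorem comm_w1 (p : ℕ) {w : k} (hw : w ≠ 0) (hσw : σ w = w) (z : ℤ)
    (s : FormGroup σ (hyp p ε J₀)) :
    Commute (tF σ ε J₀ (p + 1) hw hσw (Pi.single 0 z)) (lb σ ε J₀ p s) := by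
  refine comm_lb (d := dgF (p + 1) ι w (Pi.single 0 z)) rfl (fun x y => ?_) s
  have h : ∀ x : Idx p ι, dgF (p + 1) ι w (Pi.single 0 z) (sh x) = 1 := by
    rintro ((x | x) | x)
    · simp [sh, dgF, Pi.single_eq_of_ne (Fin.succ_ne_zero x)]
    · simp [sh, dgF, Pi.single_eq_of_ne (Fin.succ_ne_zero x)]
    · simp [sh, dgF]
  rw [h, h]

/-- the torus element of wall `r` commutes with the Levi block -/
theorem comm_wr (hσ : ∀ x, σ (σ x) = x) (p : ℕ) {w : k} (hw : w ≠ 0) (hσw : σ w = w) (z : ℤ)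
    (s : SpecialLinearGroup (Fin p) k) :
    Commute (tF σ ε J₀ p hw hσw fun _ => z) (lv σ ε J₀ hσ p s) :=
  comm_lv (d := dgF p ι w fun _ => z) hσ rfl (fun i j => rfl) (fun i j => rfl) s

theorem comm_powN {G H : Type} [Group G] [Group H] {E : Type} [Group E] {φ : G →* E} {θ : H →* G}
    {b : G} (h : ∀ s, Commute b (θ s)) (N : ℕ) (s : H) :
    φ b ^ N * (φ.comp θ) s = (φ.comp θ) s * φ b ^ N := ((h s).map φ).pow_left N

section w1

variable {P : Type} [Group P] [TopologicalSpace P] {q : ℕ}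
  {π : GL (Idx (q + 3) ι) k →* P}
  {E : Type} [Group E] [TopologicalSpace E] [MeasurableSpace E] [BorelSpace E]
  {i₁ : FormGroup σ (hyp (q + 3) ε J₀) →* E} {a : E →* P}

/-- **Wall 1**: `z = 1` or `z = -1`. -/
theorem chain_w1 [ProperSpace k] (hσc : Continuous σ) (hσ : ∀ x, σ (σ x) = x)
    (hε : ε * ε = 1) (hσε : σ ε = ε)
    (hker : ∀ z, π z = 1 → ∃ c : k, z.1 = c • (1 : Matrix (Idx (q + 3) ι) (Idx (q + 3) ι) k))
    (hq : IsQuotientMap π) (hι : Continuous i₁) (ha : Continuous a)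
    (hcomp : ∀ g : FormGroup σ (hyp (q + 3) ε J₀), a (i₁ g) = π (SpecialLinearGroup.toGL g.1))
    {w : k} (hw1 : ‖w‖ < 1) (hw : w ≠ 0) (hσw : σ w = w) (hw' : w⁻¹ ≠ 0) (hσw' : σ w⁻¹ = w⁻¹)
    {z : ℤ} (hz : z = 1 ∨ z = -1) :
    ∃ (b : Fin (q + 3) → ℕ → E) (𝒦 : Fin (q + 3) → Set E),
      H761.GChain (fun K : Set E => IsCompact K) (H261.PingT E) (q + 3) b 𝒦 ∧
      (∀ M, b 0 M = i₁ (tF σ ε J₀ (q + 3) hw hσw (Pi.single 0 z)) ^ M) ∧
      (∀ j M, (i₁.comp (lb σ ε J₀ (q + 2))) (gS1 σ ε J₀ q hw' hσw' j ^ M) = b j.succ M) ∧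
      ∀ j, (i₁.comp (lb σ ε J₀ (q + 2))) '' (fRow q J₀ hσc hσ hε hσε j).K = 𝒦 j.succ := by
  have hn : 0 < ‖w‖ := norm_pos_iff.2 hw
  have hw1' : 1 < ‖w⁻¹‖ := by
    rw [norm_inv]
    exact (one_lt_inv₀ hn).2 hw1
  refine chain1 hσc hσ hε hσε hker hq hι ha hcomp hw1' hw' hσw'
    (g₀ := tF σ ε J₀ (q + 3) hw hσw (Pi.single 0 (-1)))
    (d₀ := dgF (q + 3) ι w (Pi.single 0 (-1))) rfl (fun x y => ?_) ?_ _ ?_
  · have h : ∀ x : Idx (q + 2) ι, dgF (q + 3) ι w (Pi.single 0 (-1)) (sh x) = 1 := by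
      rintro ((x | x) | x)
      · simp [sh, dgF, Pi.single_eq_of_ne (Fin.succ_ne_zero x)]
      · simp [sh, dgF, Pi.single_eq_of_ne (Fin.succ_ne_zero x)]
      · simp [sh, dgF]
    rw [h, h]
  · have h1 : (1 : Fin (q + 3)) ≠ 0 := Fin.succ_ne_zero (n := q + 2) 0
    simp only [dgF, Sum.elim_inl, Pi.single_eq_of_ne h1, Pi.single_eq_same, zpow_zero, norm_one]
    rw [_root_.zpow_neg, zpow_one]
    exact hw1'
  · rcases hz with rfl | rfl
    · right
      rw [tF_inv]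
      congr 1
      rw [← Pi.single_neg, neg_neg]
    · left
      rfl

end w1

section wr

variable {P : Type} [Group P] [TopologicalSpace P] {q : ℕ}
  {π : GL (Idx (q + 2) ι) k →* P}
  {E : Type} [Group E] [TopologicalSpace E] [MeasurableSpace E] [BorelSpace E]
  {i₁ : FormGroup σ (hyp (q + 2) ε J₀) →* E} {a : E →* P}

/-- **Wall `r`**: `z = 1` or `z = -1`. -/
theorem chain_wr [ProperSpace k] (hσc : Continuous σ) (hσ : ∀ x, σ (σ x) = x)
    (hε : ε * ε = 1) (hσε : σ ε = ε)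
    (hker : ∀ z, π z = 1 → ∃ c : k, z.1 = c • (1 : Matrix (Idx (q + 2) ι) (Idx (q + 2) ι) k))
    (hq : IsQuotientMap π) (hι : Continuous i₁) (ha : Continuous a)
    (hcomp : ∀ g : FormGroup σ (hyp (q + 2) ε J₀), a (i₁ g) = π (SpecialLinearGroup.toGL g.1))
    (w : kˣ) (hw1 : ‖(w : k)‖ < 1) (hσw : σ (w : k) = w) {z : ℤ} (hz : z = 1 ∨ z = -1) :
    ∃ (b : Fin (q + 2) → ℕ → E) (𝒦 : Fin (q + 2) → Set E),
      H761.GChain (fun K : Set E => IsCompact K) (H261.PingT E) (q + 2) b 𝒦 ∧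
      (∀ M, b 0 M = i₁ (tF σ ε J₀ (q + 2) w.ne_zero hσw fun _ => z) ^ M) ∧
      (∀ j M, (i₁.comp (lv σ ε J₀ hσ (q + 2))) (bS w j M) = b j.succ M) ∧
      ∀ j, (i₁.comp (lv σ ε J₀ hσ (q + 2))) '' (KS k (m := q + 1) j) = 𝒦 j.succ := by
  have hn : 0 < ‖(w : k)‖ := norm_pos_iff.2 w.ne_zero
  refine chainr hσc hσ hε hσε hker hq hι ha hcomp hw1
    (g₀ := tF σ ε J₀ (q + 2) w.ne_zero hσw fun _ => -1)
    (d₀ := dgF (q + 2) ι (w : k) fun _ => -1) rfl (fun i j => rfl) (fun i j => rfl) ?_ _ ?_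
  · simp only [dgF, Sum.elim_inl, Sum.elim_inr, neg_neg, zpow_one, _root_.zpow_neg_one, norm_inv]
    exact hw1.trans ((one_lt_inv₀ hn).2 hw1)
  · rcases hz with rfl | rfl
    · right
      rw [tF_inv]
      rfl
    · left
      rfl

end wr

end Vale.Agent.P092.H411.S2
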