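import Vale.Agent.P092.H534.Ch.Long
import Vale.Agent.P092.H411.S2.Tor

/-!
P092 (helper411), TEAM P, stages 2 and 3, [CL-NRM]: chains `HChain E r` which start with the powers
of the wall elements `b1 ^ ± 1` (points) and `b2 ^ ± 1` (maximal subspaces), for every proper
homomorphism `φ : FormGroup σ (hyp r ε J₀) →* E`, every `r ≥ 2`. Short roots: `lRow`; the last
(wall 1) resp. the first (wall `r`) one is the long root.
-/

set_option linter.all false

open Matrix Set Topology Filter Pointwise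

namespace Vale.Agent.P092.H411.S2

open Vale.Agent.P092.H303
open Vale.Agent.P092.H701 (RowPair HChain elem)
open Vale.Agent.P092.H534.Ch (PPs chainOf RowT pps_rows pps_rowT exists_longF)

/-! ### Inverse chains -/

section inv

variable {E : Type} [Group E] [TopologicalSpace E] [MeasurableSpace E] [IsTopologicalGroup E]

/-- the inverse chain -/
def invChain {r : ℕ} (C : HChain E r) : HChain E r where
  b j N := (C.b j N)⁻¹
  K j := (C.K j)⁻¹
  compact j := (C.compact j).inv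
  comm_b i j hij N M := by
    rw [← _root_.mul_inv_rev, ← _root_.mul_inv_rev, C.comm_b i j hij N M]
  comm_K i j hij N x hx := by
    have h := C.comm_K i j hij N x⁻¹ hx
    have h2 : (C.b i N * x⁻¹)⁻¹ = (x⁻¹ * C.b i N)⁻¹ := by rw [h]
    rw [_root_.mul_inv_rev, _root_.mul_inv_rev, inv_inv] at h2
    exact h2.symm
  pp j p := by
    obtain ⟨N₀, hN₀⟩ := C.pp j p
    refine ⟨N₀, fun N hN => ?_⟩
    obtain ⟨κ, κ', Bm, Bp, h1, h2, h3, h4, h5, h6, h7⟩ := hN₀ N hN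
    refine ⟨fun l => (κ' l)⁻¹, fun l => (κ l)⁻¹, Bp, Bm, fun l => ?_, fun l => ?_, h4, h3, h6, h5,
      fun l x hx => ?_⟩
    · rw [Set.mem_inv, inv_inv]
      exact h2 l
    · rw [Set.mem_inv, inv_inv]
      exact h1 l
    · by_contra hc
      have h := h7 l _ hc
      have e : κ l * C.b j N * κ' l * ((κ' l)⁻¹ * (C.b j N)⁻¹ * (κ l)⁻¹ * x) = x := by group
      rw [e] at h
      exact hx h

theorem exists_inv {r : ℕ} {j : Fin r} {b : E} (h : ∃ C : HChain E r, ∀ n, C.b j n = b ^ n) :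
    ∃ C : HChain E r, ∀ n, C.b j n = b⁻¹ ^ n := by
  obtain ⟨C, hC⟩ := h
  refine ⟨invChain C, fun n => ?_⟩
  change (C.b j n)⁻¹ = _
  rw [hC, inv_pow]

end inv

/-! ### Row pairs of a subgroup -/

section pair

variable {k : Type} [NontriviallyNormedField k] {n : Type} [Fintype n] [DecidableEq n]
  {G : Subgroup (SpecialLinearGroup n k)} {i j : n}

/-- the row pair of `G` -/
def RowN.pr (R : RowN G i j) : RowPair G k (n → k) where
  ρ₁ x := x.1.1 i
  ρ₂ x := x.1.1 j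
  cont₁ := by
    have h : Continuous fun x : G => x.1.1 := continuous_subtype_val.comp continuous_subtype_val
    exact continuous_pi fun l => h.matrix_elem i l
  cont₂ := by
    have h : Continuous fun x : G => x.1.1 := continuous_subtype_val.comp continuous_subtype_val
    exact continuous_pi fun l => h.matrix_elem j l
  ne x := Vale.Agent.P092.H534.Ch.row_ne i j x
  up := R.up
  lo := R.lo
  cont_up := R.cu
  cont_lo := R.cl
  up₁ t x := R.u₁ t x.1.1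
  up₂ t x := R.u₂ t x.1.1
  lo₁ t x := R.l₁ t x.1.1
  lo₂ t x := R.l₂ t x.1.1

end pair

section main

variable {ι : Type} [Fintype ι] [DecidableEq ι] {k : Type} [NontriviallyNormedField k]
  [ProperSpace k] {σ : k →+* k} {ε : k} {J₀ : Matrix ι ι k} {s : ℕ}
  {E : Type} [Group E] [TopologicalSpace E] [IsTopologicalGroup E]
  [LocallyCompactSpace E] [SecondCountableTopology E] [MeasurableSpace E] [OpensMeasurableSpace E]
  {φ : FormGroup σ (hyp (s + 2) ε J₀) →* E}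

/-- short root position -/
theorem short_pos (hσc : Continuous σ) (hσ : ∀ x, σ (σ x) = x) (hφ : Continuous φ)
    (hp : ∀ C : Set E, IsCompact C → ∃ C' : Set (FormGroup σ (hyp (s + 2) ε J₀)),
      IsCompact C' ∧ φ ⁻¹' C ⊆ C')
    {w : k} (hw : w ≠ 0) (hw1 : ‖w‖ < 1) (hσw : σ w = w) {i j : Fin (s + 2)} (hij : i ≠ j) :
    ∃ K : Set (FormGroup σ (hyp (s + 2) ε J₀)),
      PPs (fun N => φ (tF σ ε J₀ (s + 2) hw hσw (Pi.single i (-1))) ^ N) (φ '' K) ∧
      ∀ l : Fin (s + 2) → ℤ, l i = l j → ∀ x ∈ K, Commute (tF σ ε J₀ (s + 2) hw hσw l) x := by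
  have hR := lRow (ε := ε) (J₀ := J₀) hσc hσ hij
  refine ⟨(lRow (ε := ε) (J₀ := J₀) hσc hσ hij).pr.K,
    pps_rows (lRow (ε := ε) (J₀ := J₀) hσc hσ hij).pr (fun x => rfl) (fun x => rfl)
      (d := dgF (s + 2) ι w (Pi.single i (-1))) rfl ?_ φ hφ hp, fun l hl x hx => ?_⟩
  · simp only [dgF, Sum.elim_inl, Pi.single_eq_same, Pi.single_eq_of_ne hij.symm, zpow_zero,
      norm_one]
    rw [_root_.zpow_neg_one, norm_inv]
    exact (one_lt_inv₀ (norm_pos_iff.2 hw)).2 hw1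
  · have h1 : (Sum.inl (Sum.inl i) : Idx (s + 2) ι) ≠ Sum.inl (Sum.inl j) := by simpa using hij
    have h2 : (Sum.inl (Sum.inr j) : Idx (s + 2) ι) ≠ Sum.inl (Sum.inr i) := by
      simpa using hij.symm
    have e1 : dgF (s + 2) ι w l (Sum.inl (Sum.inl i)) = dgF (s + 2) ι w l (Sum.inl (Sum.inl j)) := by
      simp only [dgF, Sum.elim_inl, hl]
    have e2 : dgF (s + 2) ι w l (Sum.inl (Sum.inr j)) = dgF (s + 2) ι w l (Sum.inl (Sum.inr i)) := by
      simp only [dgF, Sum.elim_inl, Sum.elim_inr, hl]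
    rcases hx with ⟨t, -, rfl⟩ | ⟨t, -, rfl⟩
    · apply Subtype.ext
      apply Subtype.ext
      have h := congrArg Subtype.val (torF_root2 (s + 2) hw l h1 h2 e1 e2 t (-σ t))
      change (torF (s + 2) ι hw l).1 * (lv σ ε J₀ hσ (s + 2) (elem hij t)).1.1 =
        (lv σ ε J₀ hσ (s + 2) (elem hij t)).1.1 * (torF (s + 2) ι hw l).1
      rw [lv_elem hσ hij t h1 h2]
      exact h
    · apply Subtype.ext
      apply Subtype.ext
      have h := congrArg Subtype.val (torF_root2 (s + 2) hw l h1.symm h2.symm e1.symm e2.symm t (-σ t))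
      change (torF (s + 2) ι hw l).1 * (lv σ ε J₀ hσ (s + 2) (elem hij.symm t)).1.1 =
        (lv σ ε J₀ hσ (s + 2) (elem hij.symm t)).1.1 * (torF (s + 2) ι hw l).1
      rw [lv_elem hσ hij.symm t h1.symm h2.symm]
      exact h

/-- long root position -/
theorem long_pos (hε : ε * ε = 1) (hφ : Continuous φ)
    (hp : ∀ C : Set E, IsCompact C → ∃ C' : Set (FormGroup σ (hyp (s + 2) ε J₀)),
      IsCompact C' ∧ φ ⁻¹' C ⊆ C')
    (hcc : ∃ c : k, c ≠ 0 ∧ c + ε * σ c = 0)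
    {w : k} (hw : w ≠ 0) (hw1 : ‖w‖ < 1) (hσw : σ w = w) (i : Fin (s + 2))
    {l₀ : Fin (s + 2) → ℤ} (hl₀ : l₀ i = -1) :
    ∃ K : Set (FormGroup σ (hyp (s + 2) ε J₀)),
      PPs (fun N => φ (tF σ ε J₀ (s + 2) hw hσw l₀) ^ N) (φ '' K) ∧
      ∀ l : Fin (s + 2) → ℤ, l i = 0 → ∀ x ∈ K, Commute (tF σ ε J₀ (s + 2) hw hσw l) x := by
  obtain ⟨c, hc0, hc⟩ := hcc
  have hε0 : ε ≠ 0 := left_ne_zero_of_mul_eq_one hε
  have hσt : σ c = -ε * c := by
    have h1 : ε * σ c = -c := by linear_combination hc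
    calc σ c = (ε * ε) * σ c := by rw [hε, one_mul]
      _ = ε * (ε * σ c) := by ring
      _ = -ε * c := by rw [h1]; ring
  obtain ⟨R, h1, h2, h3⟩ := exists_longF hε0 J₀ i hc0 hσt hw hw1 hσw
  refine ⟨R.K, pps_rowT R h1 h2 (d := dgF (s + 2) ι w l₀) rfl ?_ φ hφ hp, fun l hl x hx => ?_⟩
  · simp only [dgF, Sum.elim_inl, Sum.elim_inr, hl₀, neg_neg, zpow_one]
    rw [_root_.zpow_neg_one, norm_inv]
    exact hw1.trans ((one_lt_inv₀ (norm_pos_iff.2 hw)).2 hw1)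
  · refine h3 _ (dgF (s + 2) ι w l) rfl ?_ x hx
    simp only [dgF, Sum.elim_inl, Sum.elim_inr, hl, neg_zero]

theorem com_pow {a : FormGroup σ (hyp (s + 2) ε J₀)} {K : Set (FormGroup σ (hyp (s + 2) ε J₀))}
    (h : ∀ x ∈ K, Commute a x) (N : ℕ) (y : E) (hy : y ∈ φ '' K) :
    φ a ^ N * y = y * φ a ^ N := by
  obtain ⟨x, hx, rfl⟩ := hy
  exact ((h x hx).map φ).pow_left N

/-- **Wall 1** -/
theorem exists_ch1 (hσc : Continuous σ) (hσ : ∀ x, σ (σ x) = x) (hε : ε * ε = 1)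
    (hcc : ∃ c : k, c ≠ 0 ∧ c + ε * σ c = 0) (hφ : Continuous φ)
    (hp : ∀ C : Set E, IsCompact C → ∃ C' : Set (FormGroup σ (hyp (s + 2) ε J₀)),
      IsCompact C' ∧ φ ⁻¹' C ⊆ C')
    {w : k} (hw : w ≠ 0) (hw1 : ‖w‖ < 1) (hσw : σ w = w) :
    ∃ C : HChain E (s + 2), ∀ n, C.b 0 n =
      φ (tF σ ε J₀ (s + 2) hw hσw (Pi.single 0 (-1))) ^ n := by
  have key : ∀ j : Fin (s + 2), ∃ K : Set (FormGroup σ (hyp (s + 2) ε J₀)),
      PPs (fun N => φ (tF σ ε J₀ (s + 2) hw hσw (Pi.single j (-1))) ^ N) (φ '' K) ∧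
      ∀ i < j, ∀ x ∈ K, Commute (tF σ ε J₀ (s + 2) hw hσw (Pi.single i (-1))) x := by
    intro j
    induction j using Fin.lastCases with
    | last =>
      obtain ⟨K, h1, h2⟩ := long_pos hε hφ hp hcc hw hw1 hσw (Fin.last (s + 1))
        (l₀ := Pi.single (Fin.last (s + 1)) (-1)) (Pi.single_eq_same _ _)
      exact ⟨K, h1, fun i hi x hx => h2 _ (Pi.single_eq_of_ne hi.ne' _) x hx⟩
    | cast j =>
      obtain ⟨K, h1, h2⟩ := short_pos hσc hσ hφ hp hw hw1 hσw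
        (i := j.castSucc) (j := j.succ) (Fin.castSucc_lt_succ (i := j)).ne
      refine ⟨K, h1, fun i hi x hx => h2 _ ?_ x hx⟩
      rw [Pi.single_eq_of_ne hi.ne', Pi.single_eq_of_ne
        (hi.trans (Fin.castSucc_lt_succ (i := j))).ne']
  choose K hK hC using key
  exact ⟨chainOf (fun j N => φ (tF σ ε J₀ (s + 2) hw hσw (Pi.single j (-1))) ^ N)
    (fun j => φ '' K j) hK
    (fun i j _ N M => ((tF_comm (s + 2) hw hσw _ _).map φ).pow_pow N M)
    (fun i j hij N y hy => com_pow (hC j i hij) N y hy), fun n => rfl⟩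

/-- **Wall `r`** -/
theorem exists_ch2 (hσc : Continuous σ) (hσ : ∀ x, σ (σ x) = x) (hε : ε * ε = 1)
    (hcc : ∃ c : k, c ≠ 0 ∧ c + ε * σ c = 0) (hφ : Continuous φ)
    (hp : ∀ C : Set E, IsCompact C → ∃ C' : Set (FormGroup σ (hyp (s + 2) ε J₀)),
      IsCompact C' ∧ φ ⁻¹' C ⊆ C')
    {w : k} (hw : w ≠ 0) (hw1 : ‖w‖ < 1) (hσw : σ w = w) :
    ∃ C : HChain E (s + 2), ∀ n, C.b 0 n =
      φ (tF σ ε J₀ (s + 2) hw hσw fun _ => -1) ^ n := by
  obtain ⟨g, hg0, hgs⟩ : ∃ g : Fin (s + 2) → Fin (s + 2) → ℤ, (g 0 = fun _ => -1) ∧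
      ∀ i : Fin (s + 1), g i.succ = Pi.single i.castSucc (-1) :=
    ⟨Fin.cons (fun _ => -1) fun i => Pi.single i.castSucc (-1), rfl, fun i => rfl⟩
  have key : ∀ j : Fin (s + 2), ∃ K : Set (FormGroup σ (hyp (s + 2) ε J₀)),
      PPs (fun N => φ (tF σ ε J₀ (s + 2) hw hσw (g j)) ^ N) (φ '' K) ∧
      ∀ i < j, ∀ x ∈ K, Commute (tF σ ε J₀ (s + 2) hw hσw (g i)) x := by
    intro j
    induction j using Fin.cases with
    | zero =>
      obtain ⟨K, h1, h2⟩ := long_pos hε hφ hp hcc hw hw1 hσw (0 : Fin (s + 2))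
        (l₀ := fun _ => -1) rfl
      rw [hg0]
      exact ⟨K, h1, fun i hi => absurd hi (Fin.not_lt_zero i)⟩
    | succ j =>
      obtain ⟨K, h1, h2⟩ := short_pos hσc hσ hφ hp hw hw1 hσw
        (i := j.castSucc) (j := j.succ) (Fin.castSucc_lt_succ (i := j)).ne
      rw [hgs]
      refine ⟨K, h1, fun i hi x hx => h2 _ ?_ x hx⟩
      induction i using Fin.cases with
      | zero => rw [hg0]
      | succ i =>
        have hij : i < j := Fin.succ_lt_succ_iff.1 hi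
        have h3 : i.castSucc < j.castSucc := hij
        rw [hgs, Pi.single_eq_of_ne h3.ne', Pi.single_eq_of_ne
          (h3.trans (Fin.castSucc_lt_succ (i := j))).ne']
  choose K hK hC using key
  exact ⟨chainOf (fun j N => φ (tF σ ε J₀ (s + 2) hw hσw (g j)) ^ N)
    (fun j => φ '' K j) hK
    (fun i j _ N M => ((tF_comm (s + 2) hw hσw _ _).map φ).pow_pow N M)
    (fun i j hij N y hy => com_pow (hC j i hij) N y hy), fun n => by
      change φ (tF σ ε J₀ (s + 2) hw hσw (g 0)) ^ n = _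
      rw [hg0]⟩

/-- **All four chains**, `l = Pi.single 0 1` (wall 1) or `l = 1` (wall `r`). -/
theorem exists_ch (hσc : Continuous σ) (hσ : ∀ x, σ (σ x) = x) (hε : ε * ε = 1)
    (hcc : ∃ c : k, c ≠ 0 ∧ c + ε * σ c = 0) (hφ : Continuous φ)
    (hp : ∀ C : Set E, IsCompact C → ∃ C' : Set (FormGroup σ (hyp (s + 2) ε J₀)),
      IsCompact C' ∧ φ ⁻¹' C ⊆ C')
    {w : k} (hw : w ≠ 0) (hw1 : ‖w‖ < 1) (hσw : σ w = w) {l : Fin (s + 2) → ℤ}
    (hl : l = Pi.single 0 1 ∨ l = fun _ => 1) :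
    (∃ C : HChain E (s + 2), ∀ n, C.b 0 n = φ (tF σ ε J₀ (s + 2) hw hσw l) ^ n) ∧
      ∃ C : HChain E (s + 2), ∀ n, C.b 0 n = (φ (tF σ ε J₀ (s + 2) hw hσw l))⁻¹ ^ n := by
  have e : (φ (tF σ ε J₀ (s + 2) hw hσw l))⁻¹ = φ (tF σ ε J₀ (s + 2) hw hσw (-l)) := by
    rw [← map_inv, tF_inv]
  have e' : φ (tF σ ε J₀ (s + 2) hw hσw l) = (φ (tF σ ε J₀ (s + 2) hw hσw (-l)))⁻¹ := by
    rw [← e, inv_inv]
  have h : ∃ C : HChain E (s + 2), ∀ n, C.b 0 n = φ (tF σ ε J₀ (s + 2) hw hσw (-l)) ^ n := by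
    rcases hl with rfl | rfl
    · rw [← Pi.single_neg]
      exact exists_ch1 hσc hσ hε hcc hφ hp hw hw1 hσw
    · exact exists_ch2 hσc hσ hε hcc hφ hp hw hw1 hσw
  rw [e]
  refine ⟨?_, h⟩
  rw [e']
  exact exists_inv h

end main

end Vale.Agent.P092.H411.S2
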