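import Vale.Agent.P092.H534.Ch.SysR
import Vale.Agent.P092.H411.S2.Ch2
import Vale.Agent.P092.H411.S2.Jr

/-!
P092 (helper411), TEAM P, stages 2 and 3, [CL-NRM]: the near-wall statements (mass form, any model)
and the near-wall systems `SysF` of the first leg in the letters of `H632/T2/Let` (gauges
`g1, g1', gr, gr'` of `q : Γ → FormGroup σ J`), along every wall element `b` of `E` such that `b`,
`b⁻¹` start chains of length `r` (`StC`); `stc_ch`: both walls; properness from `Adm.coc`.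
-/

set_option linter.all false

open scoped InnerProductSpace ENNReal
open Matrix Filter Topology MeasureTheory ContinuousLinearMap TopologicalSpace Module

namespace Vale.Agent.P092.H411.S2

open Vale.Agent.P092.SR Vale.Agent.P092.H160
open Vale.Agent.P092.H303 (FormGroup hyp)
open Vale.Agent.P092.H714.Cl (Frm)
open Vale.Agent.P092.H370.Po (Sing)
open Vale.Agent.P092.H701 (HChain)
open Vale.Agent.P092.H761 (CovFam)
open Vale.Agent.P092.H432 Vale.Agent.P092.H132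
open Vale.Agent.P092.H538 (ind)
open Vale.Agent.P092.H933 (LocK)
open Vale.Agent.P092.H337.NG (en)
open Vale.Agent.P092.RC (VR pic)
open Vale.Agent.P092.H805.RowN (Bd msE)
open Vale.Agent.P092.H805.Row (mpE)
open Vale.Agent.P092.H416.CL (rho)
open Vale.Agent.P092.H632.T2 (ZC g1 g1' gr gr' nmC)
open Vale.Agent.P092.H859.CL (BB)
open Vale.Agent.P092.H534.Ch (StC stC_of_hchain)

section proper

variable {S E : Type} [Group S] [TopologicalSpace S] [Group E] [TopologicalSpace E]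

/-- properness -/
theorem proper_of {nm : S → ℝ} (hc : ∀ C : ℝ, IsCompact {g : S | nm g ≤ C}) {φ : S →* E}
    (coc : ∀ b : ℕ → S, Tendsto (fun n => nm (b n)) atTop atTop →
      Tendsto (fun n => φ (b n)) atTop (cocompact E)) (C : Set E) (hC : IsCompact C) :
    ∃ C' : Set S, IsCompact C' ∧ φ ⁻¹' C ⊆ C' := by
  by_contra hcon
  push Not at hcon
  have h1 : ∀ n : ℕ, ∃ g : S, φ g ∈ C ∧ (n : ℝ) < nm g := by
    intro n
    obtain ⟨g, hg, hg'⟩ := Set.not_subset.1 (hcon _ (hc n))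
    exact ⟨g, hg, not_le.1 hg'⟩
  choose b hb hbn using h1
  have h2 : Tendsto (fun n => nm (b n)) atTop atTop :=
    tendsto_atTop_mono (fun n => (hbn n).le) tendsto_natCast_atTop_atTop
  obtain ⟨n, hn⟩ := ((coc b h2).eventually hC.compl_mem_cocompact).exists
  exact hn (hb n)

theorem coc_pow {nm : S → ℝ} {φ : S →* E}
    (coc : ∀ b : ℕ → S, Tendsto (fun n => nm (b n)) atTop atTop →
      Tendsto (fun n => φ (b n)) atTop (cocompact E)) {b : S}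
    (hb : Tendsto (fun n : ℕ => nm (b ^ n)) atTop atTop) :
    Tendsto (fun n : ℕ => φ b ^ n) atTop (cocompact E) := by
  have h := coc (fun n => b ^ n) hb
  simpa only [map_pow] using h

end proper

/-- **both walls start chains** -/
theorem stc_ch {ι : Type} [Fintype ι] [DecidableEq ι] {k : Type} [NontriviallyNormedField k]
    [ProperSpace k] {σ : k →+* k} {ε : k} {J₀ : Matrix ι ι k} {s : ℕ}
    {E : Type} [Group E] [TopologicalSpace E] [IsTopologicalGroup E]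
    [LocallyCompactSpace E] [SecondCountableTopology E] [MeasurableSpace E]
    [OpensMeasurableSpace E] {φ : FormGroup σ (hyp (s + 2) ε J₀) →* E}
    (hσc : Continuous σ) (hσ : ∀ x, σ (σ x) = x) (hε : ε * ε = 1)
    (hcc : ∃ c : k, c ≠ 0 ∧ c + ε * σ c = 0) (hφ : Continuous φ)
    (hp : ∀ C : Set E, IsCompact C → ∃ C' : Set (FormGroup σ (hyp (s + 2) ε J₀)),
      IsCompact C' ∧ φ ⁻¹' C ⊆ C')
    {w : k} (hw : w ≠ 0) (hw1 : ‖w‖ < 1) (hσw : σ w = w) {l : Fin (s + 2) → ℤ}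
    (hl : l = Pi.single 0 1 ∨ l = fun _ => 1) :
    StC (s + 2) (φ (tF σ ε J₀ (s + 2) hw hσw l)) ∧
      StC (s + 2) (φ (tF σ ε J₀ (s + 2) hw hσw l))⁻¹ := by
  obtain ⟨h1, h2⟩ := exists_ch hσc hσ hε hcc hφ hp hw hw1 hσw hl
  exact ⟨stC_of_hchain (by omega) h1, stC_of_hchain (by omega) h2⟩

section X

variable {E : Type} [Group E] [TopologicalSpace E] [IsTopologicalGroup E] [LocallyCompactSpace E]
  [SecondCountableTopology E] [T2Space E] [MeasurableSpace E] [BorelSpace E]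
  (Λ : Subgroup E) [DiscreteTopology Λ] [MeasurableSpace (E ⧸ Λ)] [BorelSpace (E ⧸ Λ)]
  (ν : Measure (E ⧸ Λ)) [IsProbabilityMeasure ν] (hν : ∀ g : E, ν.map (fun x => g • x) = ν)
  {Γ Q ι : Type} [Group Γ] [Countable Γ] [Group Q] [Countable Q] [Fintype ι] {t : ℝ}
  {R : Λ → (Ell2 ((Γ × Q) × ι) →L[ℂ] Ell2 ((Γ × Q) × ι))}
  {E0 : Set Λ → (Ell2 ((Γ × Q) × ι) →L[ℂ] Ell2 ((Γ × Q) × ι))}
  {N r : ℕ} {k : Type} [NontriviallyNormedField k] [ProperSpace k]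
  {n : Type} [Fintype n] [DecidableEq n] {σ : k →+* k} {ε : k} {J : Matrix n n k}
  (e : n ≃ Fin (N + 1))

include e in
/-- **near-wall, any model: the pair of the points** -/
theorem nrm_pt (hR : ARep t R) (hE : CovFam R E0)
    (hq0 : ∀ A (q : Q), E0 A * lx ((1 : Γ), q) = lx ((1 : Γ), q) * E0 A) (h2 : 2 ≤ r)
    (h2r : 2 * r ≤ N + 1) {b : E} (hC : StC r b) (hC' : StC r b⁻¹) (hk : LocK k)
    (hF : Frm σ ε J) (hσ : ∀ x, ‖σ x‖ = ‖x‖) (hW : ∀ Y, Sing σ J Y → finrank k Y ≤ r)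
    {q : Γ → FormGroup σ J} (hph : ∀ γ γ', ∃ z ∈ ZC σ J, q (γ * γ') = z * (q γ * q γ'))
    (disc : ∀ C : ℝ, {γ : Γ | nmC e (q γ) ≤ C}.Finite) {δ : ℝ} (hδ : 0 < δ) :
    ∃ ρ : ℝ, ∀ u ∈ Subgroup.zpowers b,
      massX (H538.fst (H790.baseL (H85.cdat ν hν).μ (Γ × Q) ι)) (H790.Ri (H85.cdat ν hν) R)
        u (ind fun γ => γ ∈ BB (fun γ => g1 e (q γ)) (fun γ => g1' e (q γ)) ρ) ≤ δ :=
  H534.Ch.nrmR1 Λ ν hν hR hE hq0 h2 h2r hC hC' hk (phm_rho e hph) hσ (det_Jr hF e)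
    (fun γ => rho_row hF e (q γ)) (iso_rho hF e hW) disc hδ

include e in
/-- **near-wall, any model: the pair of the maximal subspaces** -/
theorem nrm_mx (hR : ARep t R) (hE : CovFam R E0)
    (hq0 : ∀ A (q : Q), E0 A * lx ((1 : Γ), q) = lx ((1 : Γ), q) * E0 A) (h2 : 2 ≤ r)
    (h2r : 2 * r ≤ N + 1) {b : E} (hC : StC r b) (hC' : StC r b⁻¹) (hk : LocK k)
    (hF : Frm σ ε J) (hσ : ∀ x, ‖σ x‖ = ‖x‖) (hW : ∀ Y, Sing σ J Y → finrank k Y ≤ r)
    {q : Γ → FormGroup σ J} (hph : ∀ γ γ', ∃ z ∈ ZC σ J, q (γ * γ') = z * (q γ * q γ'))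
    (disc : ∀ C : ℝ, {γ : Γ | nmC e (q γ) ≤ C}.Finite) {δ : ℝ} (hδ : 0 < δ) :
    ∃ ρ : ℝ, ∀ u ∈ Subgroup.zpowers b,
      massX (H538.fst (H790.baseL (H85.cdat ν hν).μ (Γ × Q) ι)) (H790.Ri (H85.cdat ν hν) R)
        u (ind fun γ => γ ∈ BB (fun γ => gr e r (q γ)) (fun γ => gr' e r (q γ)) ρ) ≤ δ :=
  H534.Ch.nrmRr Λ ν hν hR hE hq0 h2 h2r hC hC' hk (phm_rho e hph) hσ (det_Jr hF e)
    (fun γ => rho_row hF e (q γ)) (iso_rho hF e hW) disc hδ

end X

section con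

variable {E : Type} [Group E] [TopologicalSpace E] [IsTopologicalGroup E] [LocallyCompactSpace E]
  [SecondCountableTopology E] [T2Space E] [MeasurableSpace E] [BorelSpace E]
  {Γ : Subgroup E} [DiscreteTopology Γ] [Countable Γ] [MeasurableSpace (E ⧸ Γ)]
  [BorelSpace (E ⧸ Γ)] {ν : Measure (E ⧸ Γ)} [IsProbabilityMeasure ν]
  (hν : ∀ g : E, ν.map (fun x => g • x) = ν)
  {Λ : Type} [Group Λ] [Countable Λ] {α : Γ →* (Ell2 Λ →L[ℂ] Ell2 Λ)} (hα : Frame α)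
  {N r : ℕ} {k : Type} [NontriviallyNormedField k] [ProperSpace k]
  {n : Type} [Fintype n] [DecidableEq n] {σ : k →+* k} {ε : k} {J : Matrix n n k}
  (e : n ≃ Fin (N + 1))

include e in
/-- **`SysF` for the pair of the points**, `t = 1` -/
theorem sys_pt (h2 : 2 ≤ r) (h2r : 2 * r ≤ N + 1) {b : E} (hC : StC r b) (hC' : StC r b⁻¹)
    (hk : LocK k) (hF : Frm σ ε J) (hσ : ∀ x, ‖σ x‖ = ‖x‖)
    (hW : ∀ Y, Sing σ J Y → finrank k Y ≤ r)
    {q : Γ → FormGroup σ J} (hph : ∀ γ γ', ∃ z ∈ ZC σ J, q (γ * γ') = z * (q γ * q γ'))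
    (disc : ∀ C : ℝ, {γ : Γ | nmC e (q γ) ≤ C}.Finite) :
    H859.CL.SysF (mpE ν hα) (fun g => pic hν hα g) (Bd ν hα) (msE hν hα) (Subgroup.zpowers b)
      (fun γ => g1 e (q γ)) (fun γ => g1' e (q γ)) :=
  H534.Ch.sysR1 hν hα h2 h2r hC hC' hk (phm_rho e hph) hσ (det_Jr hF e)
    (fun γ => rho_row hF e (q γ)) (iso_rho hF e hW) disc

include e in
/-- **`SysF` for the pair of the maximal subspaces**, `t = 1` -/
theorem sys_mx (h2 : 2 ≤ r) (h2r : 2 * r ≤ N + 1) {b : E} (hC : StC r b) (hC' : StC r b⁻¹)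
    (hk : LocK k) (hF : Frm σ ε J) (hσ : ∀ x, ‖σ x‖ = ‖x‖)
    (hW : ∀ Y, Sing σ J Y → finrank k Y ≤ r)
    {q : Γ → FormGroup σ J} (hph : ∀ γ γ', ∃ z ∈ ZC σ J, q (γ * γ') = z * (q γ * q γ'))
    (disc : ∀ C : ℝ, {γ : Γ | nmC e (q γ) ≤ C}.Finite) :
    H859.CL.SysF (mpE ν hα) (fun g => pic hν hα g) (Bd ν hα) (msE hν hα) (Subgroup.zpowers b)
      (fun γ => gr e r (q γ)) (fun γ => gr' e r (q γ)) :=
  H534.Ch.sysRr hν hα h2 h2r hC hC' hk (phm_rho e hph) hσ (det_Jr hF e)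
    (fun γ => rho_row hF e (q γ)) (iso_rho hF e hW) disc

end con

end Vale.Agent.P092.H411.S2
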