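import Vale.Agent.P092.H618.S2.PosF
import Vale.Agent.P092.H534.Ch.ChP
import Vale.Agent.P092.H411.S2.Sys

/-!
P092 (helper411), TEAM P, stages 2 and 3, [CL-POS]: the middle types carry no mass, for ANY masses
with `SharpData` (every amplification), letters of `H632/T2/Let`.

`ty_w1` (wall of points, `r ≥ 3`), `ty_wr` (wall of maximal subspaces, `r ≥ 2`), `ty_two` (`r = 2`,
any element which starts a chain of length 2). Source: `φ : FormGroup σ (hyp r ε J₀) →* E`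
continuous and proper; target: `q : Γ → FormGroup σ' J` modulo scalars, Witt index at most `r`.
-/

set_option linter.all false

open scoped InnerProductSpace ENNReal
open Matrix Filter Topology Module

namespace Vale.Agent.P092.H411.S2

open Vale.Agent.P092.H200 Vale.Agent.P092.H761
open Vale.Agent.P092.H303 (FormGroup hyp Idx)
open Vale.Agent.P092.H714.Cl (Frm)
open Vale.Agent.P092.H370.Po (Sing)
open Vale.Agent.P092.H538 (ind ind_pos ind_neg)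
open Vale.Agent.P092.H261 (PingT)
open Vale.Agent.P092.H933 (LocK)
open Vale.Agent.P092.H218.NR (HMIA)
open Vale.Agent.P092.H618.HMK (Tests)
open Vale.Agent.P092.H618.PosF (pos_frm1)
open Vale.Agent.P092.H632.T2 (ZC g1 g1' gr gr' nmC)
open Vale.Agent.P092.H534.Ch (StC chain_w1P chain_wrP gaps_phR DecG)
open Vale.Agent.P092.H534.SpK (nw_cls)
open Vale.Agent.P092.H411.ChS (bS KS bS_tendsto)
open Vale.Agent.P092.RC (GG)

variable {ι : Type} [Fintype ι] [DecidableEq ι] {k : Type} [NontriviallyNormedField k]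
  [ProperSpace k] {σ : k →+* k} {ε : k} {J₀ : Matrix ι ι k} {s : ℕ}
  {E : Type} [Group E] [TopologicalSpace E] [IsTopologicalGroup E]
  [LocallyCompactSpace E] [SecondCountableTopology E] [MeasurableSpace E] [BorelSpace E]
  {Γ : Type} [Group Γ] [DecidableEq Γ] {t : ℝ} {mass : E → (Γ → ℝ) → ℝ}
  {k' : Type} [NontriviallyNormedField k'] [ProperSpace k'] {n : Type} [Fintype n] [DecidableEq n]
  {σ' : k' →+* k'} {ε' : k'} {J : Matrix n n k'} {N r : ℕ} (e : n ≃ Fin (N + 1))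

include e in
/-- **Wall of points, `r = s + 3`.** -/
theorem ty_w1 {φ : FormGroup σ (hyp (s + 3) ε J₀) →* E}
    (hd : SharpData t mass (fun K : Set E => IsCompact K) (PingT E))
    (hσc : Continuous σ) (hσ : ∀ x, σ (σ x) = x) (hε : ε * ε = 1) (hσε : σ ε = ε)
    (hφ : Continuous φ)
    (hp : ∀ C : Set E, IsCompact C → ∃ C' : Set (FormGroup σ (hyp (s + 3) ε J₀)),
      IsCompact C' ∧ φ ⁻¹' C ⊆ C')
    {w : k} (hw : w ≠ 0) (hw1 : ‖w‖ < 1) (hσw : σ w = w) {z : ℤ} (hz : z = 1 ∨ z = -1)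
    (hk' : LocK k') (hF : Frm σ' ε' J) (hσ' : ∀ x, ‖σ' x‖ = ‖x‖) (h2r : 2 * (s + 3) ≤ N + 1)
    (hW : ∀ Y, Sing σ' J Y → finrank k' Y ≤ s + 3)
    {q : Γ → FormGroup σ' J} (hph : ∀ γ γ', ∃ z ∈ ZC σ' J, q (γ * γ') = z * (q γ * q γ'))
    (disc : ∀ C : ℝ, {γ : Γ | nmC e (q γ) ≤ C}.Finite)
    (hmi : ∀ {J : Type} [Fintype J] [DecidableEq J] {R : ℕ} {gap : J → Γ → ℝ} {cl : J → Fin R}
      {A : Finset (Fin R)} {i₀ : J}, Gaps gap cl → Tests gap cl A i₀ →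
      HMIA mass gap cl A i₀ (fun n => φ (tF σ ε J₀ (s + 3) hw hσw (Pi.single 0 z)) ^ n)
        (φ.comp (lb σ ε J₀ (s + 2))) (cocompact (FormGroup σ (hyp (s + 2) ε J₀))))
    {δ : ℝ} (hδ : 0 < δ) :
    ∃ ρ : ℝ, ∀ᶠ M : ℕ in atTop, mass (φ (tF σ ε J₀ (s + 3) hw hσw (Pi.single 0 z)) ^ M)
      (ind fun γ => ρ < g1' e (q γ) ∧ ρ < gr' e (s + 3) (q γ)) ≤ δ := by
  have hw' : w⁻¹ ≠ 0 := inv_ne_zero hw
  have hσw' : σ w⁻¹ = w⁻¹ := by rw [map_inv₀, hσw]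
  have hw1' : 1 < ‖w⁻¹‖ := by
    rw [norm_inv]
    exact (one_lt_inv₀ (norm_pos_iff.2 hw)).2 hw1
  obtain ⟨b, 𝒦, h1, h2, h3, h4⟩ := chain_w1P (J₀ := J₀) (q := s) hσc hσ hε hσε hφ hp hw1 hw hσw hw'
    hσw' hz
  exact pos_frm1 hd hk' (q := fun γ => H416.CL.rho e σ' J (q γ)) (phm_rho e hph) disc hσ' (det_Jr hF e) (fun γ => rho_row hF e (q γ))
    (by omega) h2r (iso_rho hF e hW) (θ := φ.comp (lb σ ε J₀ (s + 2))) (hφ.comp continuous_lb)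
    (fun n x => comm_powN (comm_w1 (s + 2) hw hσw z) n x) (m := s + 2) (by omega) rfl h1
    (bS := fun j M => gS1 σ ε J₀ s hw' hσw' j ^ M)
    (𝒦S := fun j => (fRow s J₀ hσc hσ hε hσε j).K)
    (fun i j _ N M => gS1_comm s hw' hσw' i j N M)
    (fun i j hij N x hx => gS1_commK s hσc hσ hε hσε hw' hσw' hij N hx) h2 h3 h4
    (gS1_tendsto s hw1' hw' hσw') hmi hδ

include e in
/-- **Wall of maximal subspaces, `r = s + 2`.** -/
theorem ty_wr {φ : FormGroup σ (hyp (s + 2) ε J₀) →* E}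
    (hd : SharpData t mass (fun K : Set E => IsCompact K) (PingT E))
    (hσc : Continuous σ) (hσ : ∀ x, σ (σ x) = x) (hε : ε * ε = 1) (hσε : σ ε = ε)
    (hφ : Continuous φ)
    (hp : ∀ C : Set E, IsCompact C → ∃ C' : Set (FormGroup σ (hyp (s + 2) ε J₀)),
      IsCompact C' ∧ φ ⁻¹' C ⊆ C')
    {w : k} (hw : w ≠ 0) (hw1 : ‖w‖ < 1) (hσw : σ w = w) {z : ℤ} (hz : z = 1 ∨ z = -1)
    (hk' : LocK k') (hF : Frm σ' ε' J) (hσ' : ∀ x, ‖σ' x‖ = ‖x‖) (h2r : 2 * (s + 2) ≤ N + 1)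
    (hW : ∀ Y, Sing σ' J Y → finrank k' Y ≤ s + 2)
    {q : Γ → FormGroup σ' J} (hph : ∀ γ γ', ∃ z ∈ ZC σ' J, q (γ * γ') = z * (q γ * q γ'))
    (disc : ∀ C : ℝ, {γ : Γ | nmC e (q γ) ≤ C}.Finite)
    (hmi : ∀ {J : Type} [Fintype J] [DecidableEq J] {R : ℕ} {gap : J → Γ → ℝ} {cl : J → Fin R}
      {A : Finset (Fin R)} {i₀ : J}, Gaps gap cl → Tests gap cl A i₀ →
      HMIA mass gap cl A i₀ (fun n => φ (tF σ ε J₀ (s + 2) hw hσw fun _ => z) ^ n)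
        (φ.comp (lv σ ε J₀ hσ (s + 2))) (cocompact (SpecialLinearGroup (Fin (s + 2)) k)))
    {δ : ℝ} (hδ : 0 < δ) :
    ∃ ρ : ℝ, ∀ᶠ M : ℕ in atTop, mass (φ (tF σ ε J₀ (s + 2) hw hσw fun _ => z) ^ M)
      (ind fun γ => ρ < g1' e (q γ) ∧ ρ < gr' e (s + 2) (q γ)) ≤ δ := by
  obtain ⟨w', rfl⟩ : ∃ w' : kˣ, (w' : k) = w := ⟨Units.mk0 w hw, rfl⟩
  obtain ⟨b, 𝒦, h1, h2, h3, h4⟩ := chain_wrP (J₀ := J₀) (q := s) hσc hσ hε hσε hφ hp w' hw1 hσw hz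
  exact pos_frm1 hd hk' (q := fun γ => H416.CL.rho e σ' J (q γ)) (phm_rho e hph) disc hσ' (det_Jr hF e) (fun γ => rho_row hF e (q γ))
    (by omega) h2r (iso_rho hF e hW) (θ := φ.comp (lv σ ε J₀ hσ (s + 2)))
    (hφ.comp (continuous_lv hσc hσ))
    (fun n x => comm_powN (comm_wr hσ (s + 2) hw hσw z) n x) (m := s + 1) (by omega) rfl h1
    (bS := fun j M => bS w' j M) (𝒦S := fun j => KS k (m := s + 1) j)
    (fun i j _ N M => bS_commS w' i j N M)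
    (fun i j hij N x hx => bS_commKS w' hij N hx) h2 h3 h4
    (bS_tendsto hw1 (by omega)) hmi hδ

include e in
/-- **Witt index 2: no middle type.** -/
theorem ty_two (hd : SharpData t mass (fun K : Set E => IsCompact K) (PingT E)) {z : E}
    (hC : StC 2 z) (hk' : LocK k') (hF : Frm σ' ε' J) (hσ' : ∀ x, ‖σ' x‖ = ‖x‖)
    (h2r : 2 * 2 ≤ N + 1) (hW : ∀ Y, Sing σ' J Y → finrank k' Y ≤ 2)
    {q : Γ → FormGroup σ' J} (hph : ∀ γ γ', ∃ z ∈ ZC σ' J, q (γ * γ') = z * (q γ * q γ'))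
    (disc : ∀ C : ℝ, {γ : Γ | nmC e (q γ) ≤ C}.Finite) {δ : ℝ} (hδ : 0 < δ) :
    ∃ ρ : ℝ, ∀ M : ℕ, mass (z ^ M)
      (ind fun γ => ρ < g1' e (q γ) ∧ ρ < gr' e 2 (q γ)) ≤ δ := by
  classical
  obtain ⟨I, hI, gp, wt, cl, hs, hsur, hcomp, hfin, c, C, D, hc, hdec⟩ :=
    gaps_phR hk' (by omega) h2r (phm_rho e hph) hσ' (det_Jr hF e) (fun γ => rho_row hF e (q γ))
      (iso_rho hF e hW) disc
  have hG : DecG h2r (fun γ => H416.CL.rho e σ' J (q γ)) gp cl c C D := hdec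
  obtain ⟨b, 𝒦, hch, hb⟩ := hC
  obtain ⟨R, hR⟩ := nw_cls hd hch (by omega) le_rfl hs hcomp hfin hδ
  obtain ⟨ρ, hρ⟩ := hG.mid le_rfl hsur hc R
  refine ⟨ρ, fun M => ?_⟩
  rw [← hb (by omega) M]
  refine (hd.ind_mono _ fun γ hγ => ?_).trans (hR M)
  rcases hρ γ hγ.1 hγ.2 with h | ⟨x, h0, h1, -⟩
  · exact h
  · exfalso
    have := (cl x).2
    omega

end Vale.Agent.P092.H411.S2
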