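import Vale.Agent.P092.CL.ExDefs
import Vale.Agent.P092.H411.S2.Ty
import Vale.Agent.P092.H618.S2.HmiF
import Vale.Agent.P092.H933.HMPA

/-!
P092 (helper411), TEAM P, stages 2 and 3, [CL-NRM] + [CL-POS], `t = 1`: the analytic input `Wal` of
`CL/ExDefs` of both walls of the source, on the picture of `H34` / `H805.RowN`. Source
`φ : FormGroup σ (hyp (s + 2) ε J₀) →* E` continuous and proper; target `q : Γ → FormGroup σ' J`
modulo scalars, the same Witt index, any local field.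
-/

set_option linter.all false

open scoped InnerProductSpace ENNReal
open Filter Topology ContinuousLinearMap MeasureTheory TopologicalSpace Module

namespace Vale.Agent.P092.H411.S2

open Vale.Agent.P092.SR Vale.Agent.P092.H160
open Vale.Agent.P092.H303 (FormGroup hyp Idx)
open Vale.Agent.P092.H714.Cl (Frm)
open Vale.Agent.P092.H370.Po (Sing)
open Vale.Agent.P092.H538 (ind ind_pos ind_neg)
open Vale.Agent.P092.H261 (PingT)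
open Vale.Agent.P092.H933 (LocK)
open Vale.Agent.P092.H15 (HMG)
open Vale.Agent.P092.H632.T2 (ZC g1 g1' gr gr' nmC)
open Vale.Agent.P092.H534.Ch (StC)
open Vale.Agent.P092.RC (VR arep_VR KK pic lam₁ lam₂ XX Om Pic)
open Vale.Agent.P092.H805.RowN (Bd msE cov_VR cov_lx escE')
open Vale.Agent.P092.H805.Row (mpE)
open Vale.Agent.P092.H859.CL (st Fn)
open Vale.Agent.P092.H218.NR (HMIA)
open Vale.Agent.P092.H618.HMK (Tests)
open Vale.Agent.P092.H761 (Gaps)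

theorem st_sq {Γ K : Type} [NormedAddCommGroup K] [InnerProductSpace ℂ K] [CompleteSpace K]
    {mp : (Γ → ℝ) → (K →L[ℂ] K)} (h : Fn mp) (S : Set Γ) (v : K) :
    ‖st mp S v‖ ^ 2 = (⟪v, mp (ind fun g => g ∈ S) v⟫_ℂ).re := by
  obtain ⟨F, hF⟩ : ∃ F : Γ → ℝ, F = ind fun g => g ∈ S := ⟨_, rfl⟩
  have hb : ∀ g, |F g| ≤ 1 := fun g => by rw [hF]; exact H538.abs_ind_le _ _
  have e1 : (fun g => F g * F g) = F := by
    funext g
    rw [hF]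
    by_cases hg : g ∈ S
    · rw [ind_pos (P := fun g => g ∈ S) hg, one_mul]
    · rw [ind_neg (P := fun g => g ∈ S) hg, mul_zero]
  have e2 : mp F * mp F = mp F := by rw [← h.mul hb hb, e1]
  have e3 : ⟪v, mp F v⟫_ℂ = ⟪mp F v, mp F v⟫_ℂ := by
    conv_lhs => rw [← e2]
    rw [ContinuousLinearMap.mul_apply, ← ContinuousLinearMap.adjoint_inner_left, h.adj hb]
  rw [← hF, e3]
  change ‖mp (ind fun g => g ∈ S) v‖ ^ 2 = _
  rw [← hF, inner_self_eq_norm_sq_to_K]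
  norm_cast

section con

variable {E : Type} [Group E] [TopologicalSpace E] [IsTopologicalGroup E] [LocallyCompactSpace E]
  [SecondCountableTopology E] [T2Space E] [MeasurableSpace E] [BorelSpace E] [NoncompactSpace E]
  {Γ : Subgroup E} [DiscreteTopology Γ] [Countable Γ] [MeasurableSpace (E ⧸ Γ)]
  [BorelSpace (E ⧸ Γ)] {ν : Measure (E ⧸ Γ)} [IsProbabilityMeasure ν]
  (hν : ∀ g : E, ν.map (fun x => g • x) = ν)
  {Λ : Type} [Group Λ] [Countable Λ] {α : Γ →* (Ell2 Λ →L[ℂ] Ell2 Λ)} (hα : Frame α)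
  {ι : Type} [Fintype ι] [DecidableEq ι] {k : Type} [NontriviallyNormedField k]
  [ProperSpace k] {σ : k →+* k} {ε : k} {J₀ : Matrix ι ι k} {s : ℕ}
  {k' : Type} [NontriviallyNormedField k'] [ProperSpace k'] {n : Type} [Fintype n] [DecidableEq n]
  {σ' : k' →+* k'} {ε' : k'} {J : Matrix n n k'} {N r : ℕ} (e : n ≃ Fin (N + 1))

/-- The masses of the picture. -/
noncomputable def mas (hν : ∀ g : E, ν.map (fun x => g • x) = ν) (hα : Frame α) (g : E)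
    (F : Γ → ℝ) : ℝ :=
  H132.massX (H538.fst (H790.baseL (H85.cdat ν hν).μ (Γ × Γ) Unit))
    (H790.Ri (H85.cdat ν hν) (RC.VR hα)) g F

open Classical in
theorem sharp_mas : H761.SharpData 1 (mas hν hα) (fun K : Set E => IsCompact K) (PingT E) :=
  H761.sharpCoef Γ ν hν (arep_VR hα) (cov_VR hα) (fun A q => cov_lx hα A q)

theorem mas_eq (g : E) (F : Γ → ℝ) :
    mas hν hα g F = (⟪pic hν hα g (Om ν Λ), mpE ν hα F (pic hν hα g (Om ν Λ))⟫_ℂ).re :=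
  H618.Hmi.massX_eq hν hα g F

theorem ty_of (hfn : Fn (mpE ν hα)) {b : E} {P : ℝ → Γ → Prop}
    (h : ∀ δ : ℝ, 0 < δ → ∃ ρ : ℝ, ∀ᶠ M : ℕ in atTop, mas hν hα (b⁻¹ ^ M) (ind (P ρ)) ≤ δ)
    (δ : ℝ) (hδ : 0 < δ) :
    ∃ R : ℝ, ∀ᶠ M : ℕ in atTop,
      ‖st (mpE ν hα) {γ | P R γ} (pic hν hα (b ^ M)⁻¹ (Om ν Λ))‖ ≤ δ := by
  obtain ⟨ρ, hρ⟩ := h (δ ^ 2) (by positivity)
  refine ⟨ρ, hρ.mono fun M hM => ?_⟩
  have h1 := st_sq hfn {γ | P ρ γ} (pic hν hα (b ^ M)⁻¹ (Om ν Λ))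
  have h2 : (ind fun g => g ∈ {γ | P ρ γ}) = ind (P ρ) := rfl
  rw [h2, ← mas_eq hν hα, ← inv_pow] at h1
  have h3 : ‖st (mpE ν hα) {γ | P ρ γ} (pic hν hα (b⁻¹ ^ M) (Om ν Λ))‖ ^ 2 ≤ δ ^ 2 := by
    rw [h1]
    exact hM
  rw [← inv_pow]
  exact le_of_sq_le_sq h3 hδ.le

theorem tor_eq (q : ℕ) {w : k} (hw : w ≠ 0) (hσw : σ w = w) (l : Fin q → ℤ) :
    H618.MooreF.tor q σ ε J₀ hw hσw l = tF σ ε J₀ q hw hσw l := rfl

include e in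
/-- **`ty`, wall of points** -/
theorem ty_b1 {φ : FormGroup σ (hyp (s + 2) ε J₀) →* E}
    (hΛ : ∀ g : Λ, g ≠ 1 → Set.Infinite {y : Λ | ∃ h, y = h * g * h⁻¹})
    (hσc : Continuous σ) (hσ : ∀ x, σ (σ x) = x) (hε : ε * ε = 1) (hσε : σ ε = ε)
    (hcc : ∃ c : k, c ≠ 0 ∧ c + ε * σ c = 0)
    (hM : ∀ p, 1 ≤ p → HMG (FormGroup σ (hyp p ε J₀))) (hφ : Continuous φ)
    (hp : ∀ C : Set E, IsCompact C → ∃ C' : Set (FormGroup σ (hyp (s + 2) ε J₀)),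
      IsCompact C' ∧ φ ⁻¹' C ⊆ C')
    {w : k} (hw : w ≠ 0) (hw1 : ‖w‖ < 1) (hσw : σ w = w)
    (hk' : LocK k') (hF : Frm σ' ε' J) (hσ' : ∀ x, ‖σ' x‖ = ‖x‖) (h2r : 2 * (s + 2) ≤ N + 1)
    (hW : ∀ Y, Sing σ' J Y → finrank k' Y ≤ s + 2)
    {q : Γ → FormGroup σ' J} (hph : ∀ γ γ', ∃ z ∈ ZC σ' J, q (γ * γ') = z * (q γ * q γ'))
    (disc : ∀ C : ℝ, {γ : Γ | nmC e (q γ) ≤ C}.Finite) {δ : ℝ} (hδ : 0 < δ) :
    ∃ ρ : ℝ, ∀ᶠ M : ℕ in atTop, mas hν hα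
      ((φ (tF σ ε J₀ (s + 2) hw hσw (Pi.single 0 1)))⁻¹ ^ M)
      (ind fun γ => ρ < g1' e (q γ) ∧ ρ < gr' e (s + 2) (q γ)) ≤ δ := by
  classical
  have hd := sharp_mas hν hα
  rcases s with _ | s
  · obtain ⟨ρ, hρ⟩ := ty_two e hd
      (stc_ch hσc hσ hε hcc hφ hp hw hw1 hσw (Or.inl rfl)).2 hk' hF hσ' h2r hW hph disc hδ
    exact ⟨ρ, Filter.Eventually.of_forall hρ⟩
  · have e1 : (φ (tF σ ε J₀ (s + 3) hw hσw (Pi.single 0 1)))⁻¹ =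
        φ (tF σ ε J₀ (s + 3) hw hσw (Pi.single 0 (-1))) := by
      rw [← map_inv, tF_inv, ← Pi.single_neg]
    have hne : (Pi.single 0 (-1) : Fin (s + 3) → ℤ) ≠ 0 := by
      intro h
      have := congrFun h 0
      rw [Pi.single_eq_same, Pi.zero_apply] at this
      omega
    change ∃ ρ : ℝ, ∀ᶠ M : ℕ in atTop, mas hν hα
      ((φ (tF σ ε J₀ (s + 3) hw hσw (Pi.single 0 1)))⁻¹ ^ M)
      (ind fun γ => ρ < g1' e (q γ) ∧ ρ < gr' e (s + 3) (q γ)) ≤ δ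
    rw [e1]
    refine ty_w1 e hd hσc hσ hε hσε hφ hp hw hw1 hσw (Or.inr rfl) hk' hF hσ' h2r hW hph disc ?_ hδ
    intro J' _ _ R gap cl A i₀ hg hT
    exact H618.HmiF.hmi_tor hν hα hΛ hφ continuous_lb (hM (s + 2) (by omega)).howeMoore
      (hM (s + 3) (by omega)) hσc hσ (by rw [hσε]; exact hε) (by omega) hw hw1.ne hσw hne
      (fun x => (comm_w1 (s + 2) hw hσw (-1) x).symm) (fun g F _ => mas_eq hν hα g F) hg hT

include e in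
/-- **`ty`, wall of maximal subspaces** -/
theorem ty_b2 {φ : FormGroup σ (hyp (s + 2) ε J₀) →* E}
    (hΛ : ∀ g : Λ, g ≠ 1 → Set.Infinite {y : Λ | ∃ h, y = h * g * h⁻¹}) (hk : LocK k)
    (hσc : Continuous σ) (hσ : ∀ x, σ (σ x) = x) (hε : ε * ε = 1) (hσε : σ ε = ε)
    (hM : ∀ p, 1 ≤ p → HMG (FormGroup σ (hyp p ε J₀))) (hφ : Continuous φ)
    (hp : ∀ C : Set E, IsCompact C → ∃ C' : Set (FormGroup σ (hyp (s + 2) ε J₀)),
      IsCompact C' ∧ φ ⁻¹' C ⊆ C')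
    {w : k} (hw : w ≠ 0) (hw1 : ‖w‖ < 1) (hσw : σ w = w)
    (hk' : LocK k') (hF : Frm σ' ε' J) (hσ' : ∀ x, ‖σ' x‖ = ‖x‖) (h2r : 2 * (s + 2) ≤ N + 1)
    (hW : ∀ Y, Sing σ' J Y → finrank k' Y ≤ s + 2)
    {q : Γ → FormGroup σ' J} (hph : ∀ γ γ', ∃ z ∈ ZC σ' J, q (γ * γ') = z * (q γ * q γ'))
    (disc : ∀ C : ℝ, {γ : Γ | nmC e (q γ) ≤ C}.Finite) {δ : ℝ} (hδ : 0 < δ) :
    ∃ ρ : ℝ, ∀ᶠ M : ℕ in atTop, mas hν hα
      ((φ (tF σ ε J₀ (s + 2) hw hσw fun _ => 1))⁻¹ ^ M)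
      (ind fun γ => ρ < g1' e (q γ) ∧ ρ < gr' e (s + 2) (q γ)) ≤ δ := by
  classical
  have hd := sharp_mas hν hα
  have e1 : (φ (tF σ ε J₀ (s + 2) hw hσw fun _ => 1))⁻¹ =
      φ (tF σ ε J₀ (s + 2) hw hσw fun _ => -1) := by
    rw [← map_inv, tF_inv]
    rfl
  have hne : (fun _ => -1 : Fin (s + 2) → ℤ) ≠ 0 := by
    intro h
    have := congrFun h 0
    rw [Pi.zero_apply] at this
    omega
  rw [e1]
  refine ty_wr e hd hσc hσ hε hσε hφ hp hw hw1 hσw (Or.inr rfl) hk' hF hσ' h2r hW hph disc ?_ hδ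
  intro J' _ _ R gap cl A i₀ hg hT
  exact H618.HmiF.hmi_tor hν hα hΛ hφ (continuous_lv hσc hσ) (H933.hm_sl hk (by omega))
    (hM (s + 2) (by omega)) hσc hσ (by rw [hσε]; exact hε) (by omega) hw hw1.ne hσw hne
    (fun x => (comm_wr hσ (s + 2) hw hσw (-1) x).symm) (fun g F _ => mas_eq hν hα g F) hg hT

include e in
/-- **`Wal` of both walls, `t = 1`.** -/
theorem wal_frm {P M : Type} {T : CL.Gau (FormGroup σ' J) P M}
    (hG1 : T.G1 = g1 e) (hH1 : T.H1 = g1' e) (hG2 : T.G2 = gr e (s + 2))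
    (hH2 : T.H2 = gr' e (s + 2))
    {φ : FormGroup σ (hyp (s + 2) ε J₀) →* E}
    (hΛ : ∀ g : Λ, g ≠ 1 → Set.Infinite {y : Λ | ∃ h, y = h * g * h⁻¹}) (hk : LocK k)
    (hσc : Continuous σ) (hσ : ∀ x, σ (σ x) = x) (hε : ε * ε = 1) (hσε : σ ε = ε)
    (hcc : ∃ c : k, c ≠ 0 ∧ c + ε * σ c = 0)
    (hM : ∀ p, 1 ≤ p → HMG (FormGroup σ (hyp p ε J₀))) (hφ : Continuous φ)
    {nm : FormGroup σ (hyp (s + 2) ε J₀) → ℝ} (hc : ∀ C : ℝ, IsCompact {g | nm g ≤ C})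
    (coc : ∀ b : ℕ → FormGroup σ (hyp (s + 2) ε J₀), Tendsto (fun n => nm (b n)) atTop atTop →
      Tendsto (fun n => φ (b n)) atTop (cocompact E))
    {w : k} (hw : w ≠ 0) (hw1 : ‖w‖ < 1) (hσw : σ w = w)
    (hb1 : Tendsto (fun n : ℕ => nm (tF σ ε J₀ (s + 2) hw hσw (Pi.single 0 1) ^ n)) atTop atTop)
    (hb2 : Tendsto (fun n : ℕ => nm (tF σ ε J₀ (s + 2) hw hσw (fun _ => 1) ^ n)) atTop atTop)
    (hk' : LocK k') (hF : Frm σ' ε' J) (hσ' : ∀ x, ‖σ' x‖ = ‖x‖) (h2r : 2 * (s + 2) ≤ N + 1)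
    (hW : ∀ Y, Sing σ' J Y → finrank k' Y ≤ s + 2)
    {q : Γ → FormGroup σ' J} (hph : ∀ γ γ', ∃ z ∈ ZC σ' J, q (γ * γ') = z * (q γ * q γ'))
    (disc : ∀ C : ℝ, {γ : Γ | nmC e (q γ) ≤ C}.Finite) :
    CL.Wal (mpE ν hα) (pic hν hα) (Bd ν hα) (msE hν hα) T q (Om ν Λ)
        (φ (tF σ ε J₀ (s + 2) hw hσw (Pi.single 0 1))) ∧
      CL.Wal (mpE ν hα) (pic hν hα) (Bd ν hα) (msE hν hα) T q (Om ν Λ)
        (φ (tF σ ε J₀ (s + 2) hw hσw fun _ => 1)) := by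
  have hp := proper_of (φ := φ) hc coc
  obtain ⟨c1, c1'⟩ := stc_ch hσc hσ hε hcc hφ hp hw hw1 hσw (Or.inl rfl)
  obtain ⟨c2, c2'⟩ := stc_ch hσc hσ hε hcc hφ hp hw hw1 hσw (Or.inr rfl)
  have s11 := sys_pt hν hα e (by omega) h2r c1 c1' hk' hF hσ' hW hph disc
  have s12 := sys_mx hν hα e (by omega) h2r c1 c1' hk' hF hσ' hW hph disc
  have s21 := sys_pt hν hα e (by omega) h2r c2 c2' hk' hF hσ' hW hph disc
  have s22 := sys_mx hν hα e (by omega) h2r c2 c2' hk' hF hσ' hW hph disc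
  refine ⟨⟨?_, ?_, escE' hν hα (coc_pow coc hb1), ?_⟩, ⟨?_, ?_, escE' hν hα (coc_pow coc hb2), ?_⟩⟩
  · rw [hG1, hH1]
    exact s11
  · rw [hG2, hH2]
    exact s12
  · rw [hH1, hH2]
    exact ty_of hν hα s11.fn (P := fun R γ => R < g1' e (q γ) ∧ R < gr' e (s + 2) (q γ))
      fun δ hδ => ty_b1 hν hα e hΛ hσc hσ hε hσε hcc hM hφ hp hw hw1 hσw hk' hF hσ' h2r hW hph
        disc hδ
  · rw [hG1, hH1]
    exact s21
  · rw [hG2, hH2]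
    exact s22
  · rw [hH1, hH2]
    exact ty_of hν hα s11.fn (P := fun R γ => R < g1' e (q γ) ∧ R < gr' e (s + 2) (q γ))
      fun δ hδ => ty_b2 hν hα e hΛ hk hσc hσ hε hσε hM hφ hp hw hw1 hσw hk' hF hσ' h2r hW hph
        disc hδ

end con

end Vale.Agent.P092.H411.S2
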