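import Vale.Agent.P092.CL.Ex
import Vale.Agent.P092.CL.Lt
import Vale.Agent.P092.H411.S2.Wal
import Vale.Agent.P092.H632.T2.Gok
import Vale.Agent.P092.H632.T2.Br
import Vale.Agent.P092.H874.CLAdm

/-!
P092 (helper411), TEAM P, stages 2 and 3: `WalStmt` for the concrete letters `CL.lt` (symplectic and
unitary groups of Witt index `s + 2`), `t = 1`.
-/

set_option linter.all false

open scoped InnerProductSpace ENNReal
open Filter Topology ContinuousLinearMap MeasureTheory TopologicalSpace Module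

namespace Vale.Agent.P092.H411.S2

open Vale.Agent.P092.SR Vale.Agent.P092.H160
open Vale.Agent.P092.H303 (FormGroup hyp Idx)
open Vale.Agent.P092.H714.Cl
open Vale.Agent.P092.H370.Po (Sing WI SGr)
open Vale.Agent.P092.H933 (LocK)
open Vale.Agent.P092.H15 (HMG)
open Vale.Agent.P092.H632.T2 (ZC g1 g1' gr gr' nmC gau)
open Vale.Agent.P092.H874.CLAdm (hmg_frm)

section down

variable {ι : Type} [Fintype ι] [DecidableEq ι] {k : Type} [NontriviallyNormedField k]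
  {σ : k →+* k} {ε : k} {J₀ : Matrix ι ι k} {q : ℕ}

theorem hf_elim (x : ι → k) (y : Idx q ι → k) :
    hf σ (hyp q ε J₀) (Sum.elim (fun _ => 0) x) y = hf σ J₀ x fun i => y (.inr i) := by
  rw [hf_hyp]
  simp

/-- the anisotropic part of a form with all the properties -/
theorem frm0_of (hF : Frm σ ε (hyp q ε J₀)) : Frm0 σ ε J₀ where
  herm x y := by
    have h := hF.herm (Sum.elim (fun _ => 0) x) (Sum.elim (fun _ => 0) y)
    rw [hf_elim, hf_elim] at h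
    exact h
  nondeg x hx := by
    have hx' : (Sum.elim (fun _ => 0) x : Idx q ι → k) ≠ 0 := by
      intro h0
      apply hx
      funext i
      exact congrFun h0 (.inr i)
    obtain ⟨y, hy⟩ := hF.nondeg _ hx'
    rw [hf_elim] at hy
    exact ⟨_, hy⟩
  tv y := by
    obtain ⟨β, hβ⟩ := hF.tv (Sum.elim (fun _ => 0) y)
    rw [hf_elim] at hβ
    exact ⟨β, hβ⟩

theorem frm_any (hF : Frm σ ε (hyp q ε J₀)) {p : ℕ} (hp : 1 ≤ p) : Frm σ ε (hyp p ε J₀) :=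
  frm_hyp hF.inv hF.eps hF.seps (frm0_of hF) hF.cc hp

end down

section lt

variable {ι : Type} [Fintype ι] [DecidableEq ι] {k : Type} [NontriviallyNormedField k]
  [ProperSpace k] [MeasurableSpace k] {σ : k →+* k} {ε : k} {J₀ : Matrix ι ι k} {s N : ℕ}

/-- **`WalStmt` for `CL.lt`.** -/
theorem walStmt_lt (hk : LocK k) (hσ : ∀ x, ‖σ x‖ = ‖x‖) (e : Idx (s + 2) ι ≃ Fin (N + 1))
    (hF : Frm σ ε (hyp (s + 2) ε J₀)) (hW : WI σ (hyp (s + 2) ε J₀) (s + 2)) {w : k} (hw : w ≠ 0)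
    (hw1 : ‖w‖ < 1) (hσw : σ w = w) (μ₁ : Measure k) (μ₂ : Measure (CL.V2 σ ε))
    {bp : FormGroup σ (hyp (s + 2) ε J₀) → SGr σ (hyp (s + 2) ε J₀) 1}
    {bm : FormGroup σ (hyp (s + 2) ε J₀) → SGr σ (hyp (s + 2) ε J₀) (s + 2)}
    {E : Type} [Group E] [TopologicalSpace E] [IsTopologicalGroup E] [LocallyCompactSpace E]
    [SecondCountableTopology E] [T2Space E] {φ : FormGroup σ (hyp (s + 2) ε J₀) →* E}
    (hφ : Continuous φ)
    (coc : ∀ b : ℕ → FormGroup σ (hyp (s + 2) ε J₀),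
      Tendsto (fun n => (CL.lt hF hw hσw μ₁ μ₂).nm (b n)) atTop atTop →
      Tendsto (fun n => φ (b n)) atTop (cocompact E))
    (hc : ∀ C : ℝ, IsCompact {g | (CL.lt hF hw hσw μ₁ μ₂).nm g ≤ C})
    (hb1 : Tendsto (fun n : ℕ => (CL.lt hF hw hσw μ₁ μ₂).nm ((CL.lt hF hw hσw μ₁ μ₂).b1 ^ n))
      atTop atTop)
    (hb2 : Tendsto (fun n : ℕ => (CL.lt hF hw hσw μ₁ μ₂).nm ((CL.lt hF hw hσw μ₁ μ₂).b2 ^ n))
      atTop atTop) :
    CL.WalStmt (CL.lt hF hw hσw μ₁ μ₂) (gau e (s + 2) (MonoidHom.id _) bp bm) φ := by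
  intro _ _ Γ _ _ _ _ ν _ hν Λ _ _ α hα hΛ q hq hph hfin
  have hσc : Continuous σ := continuous_of_norm hσ
  haveI : NoncompactSpace E := by
    rw [← Filter.cocompact_neBot_iff]
    exact (coc _ hb1).neBot
  have hcard : Fintype.card (Idx (s + 2) ι) = N + 1 := by
    rw [Fintype.card_congr e, Fintype.card_fin]
  have h2 : 2 * (s + 2) ≤ N + 1 := by
    rw [← hcard]
    have : Fintype.card (Idx (s + 2) ι) = (s + 2) + (s + 2) + Fintype.card ι := by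
      unfold Idx
      rw [Fintype.card_sum, Fintype.card_sum, Fintype.card_fin]
    omega
  have hph' : ∀ γ γ', ∃ z ∈ ZC σ (hyp (s + 2) ε J₀), q (γ * γ') = z * (q γ * q γ') := by
    intro γ γ'
    obtain ⟨z, hz, h⟩ := hph γ γ'
    exact ⟨z, hz, h⟩
  have disc : ∀ C : ℝ, {γ : Γ | nmC e (q γ) ≤ C}.Finite := by
    intro C
    refine (hfin C).subset fun γ hγ => ?_
    change CL.nmM (CL.ta (q γ).1) ≤ C
    rw [H632.T2.nm_rho e (q γ)]
    exact hγ
  exact wal_frm hν hα e (T := gau e (s + 2) (MonoidHom.id _) bp bm) rfl rfl rfl rfl hΛ hk hσc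
    hF.inv hF.eps hF.seps hF.cc (fun p hp => hmg_frm hσ (frm_any hF hp)) hφ hc coc hw hw1 hσw hb1
    hb2 hk hF hσ h2 hW.2 hph' disc

/-- `WalStmt` for `CL.lt` from the two records. -/
theorem wal_lt [Fact (Continuous σ)] (hk : LocK k) (hσ : ∀ x, ‖σ x‖ = ‖x‖)
    (hF : Frm σ ε (hyp (s + 2) ε J₀)) (hW : WI σ (hyp (s + 2) ε J₀) (s + 2)) {w : k} (hw : w ≠ 0)
    (hσw : σ w = w) (hw1 : ‖w‖ < 1) (μ₁ : Measure k) (μ₂ : Measure (CL.V2 σ ε))
    {E : Type} [Group E] [TopologicalSpace E] [IsTopologicalGroup E] [LocallyCompactSpace E]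
    [SecondCountableTopology E] [T2Space E] {φ : FormGroup σ (hyp (s + 2) ε J₀) →* E}
    (hG : CL.Geo (CL.lt hF hw hσw μ₁ μ₂)) (hA : CL.Adm (CL.lt hF hw hσw μ₁ μ₂) φ)
    (e : Idx (s + 2) ι ≃ Fin (N + 1))
    (bp : FormGroup σ (hyp (s + 2) ε J₀) → SGr σ (hyp (s + 2) ε J₀) 1)
    (bm : FormGroup σ (hyp (s + 2) ε J₀) → SGr σ (hyp (s + 2) ε J₀) (s + 2)) :
    CL.WalStmt (CL.lt hF hw hσw μ₁ μ₂) (gau e (s + 2) (MonoidHom.id _) bp bm) φ :=
  walStmt_lt hk hσ e hF hW hw hw1 hσw μ₁ μ₂ hA.cι hA.coc hG.nm_cpt hG.nm_b1 hG.nm_b2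

end lt

end Vale.Agent.P092.H411.S2
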