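import Vale.Agent.P092.H387.Qt2
import Vale.Agent.P092.H218.NEndA

/-!
P092 (helper411), Teams P / CL, [P2-NRM] part 1: rows of a group `G ≤ SL(n, k)` (any finite index
type `n`), chains of any length in a group `E` with `ι : G →* E` and `a : E →* P`, where
`π : GL(n, k) →* P` is a quotient map whose kernel consists of scalars; nested chains
`b 0 = ι g₀`, `b (j+1) = ι (θ (..))` with `θ : S →* G`.
-/

set_option linter.all false

open Matrix Set Topology Filter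

namespace Vale.Agent.P092.H411.S2

open Vale.Agent.P092.H701 (RowPair HChain)
open Vale.Agent.P092.H387.Qt (ScK pp_quo)
open Vale.Agent.P092.H761 (GChain)
open Vale.Agent.P092.H261 (PingT)

section row

variable {k : Type} [NontriviallyNormedField k] {n : Type} [Fintype n] [DecidableEq n]
  {G : Subgroup (SpecialLinearGroup n k)}

theorem continuous_gr (a : n) : Continuous fun x : GL n k => x.1 a := by
  have h : Continuous fun x : GL n k => (x.1 : Matrix n n k) := Units.continuous_val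
  exact continuous_pi fun j => h.matrix_elem a j

theorem gr_pos (x : GL n k) (a : n) : 0 < ‖x.1 a‖ := by
  rw [norm_pos_iff]
  intro h
  have h1 : x.1.det = 0 := det_eq_zero_of_row_eq_zero a (fun j => congrFun h j)
  have h2 : IsUnit x.1.det := (Matrix.isUnit_iff_isUnit_det _).1 x.isUnit
  rw [h1] at h2
  exact not_isUnit_zero h2

/-- Two rows with two one-parameter families in `G`. -/
structure RowN (G : Subgroup (SpecialLinearGroup n k)) (i j : n) where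
  up : k → G
  lo : k → G
  cu : Continuous up
  cl : Continuous lo
  u₁ : ∀ t (X : Matrix n n k), ((up t).1.1 * X) i = X i + t • X j
  u₂ : ∀ t (X : Matrix n n k), ((up t).1.1 * X) j = X j
  l₁ : ∀ t (X : Matrix n n k), ((lo t).1.1 * X) i = X i
  l₂ : ∀ t (X : Matrix n n k), ((lo t).1.1 * X) j = X j + t • X i

namespace RowN

variable {i j : n}

/-- the dual pair -/
def sw (R : RowN G i j) : RowN G j i where
  up := R.lo
  lo := R.up
  cu := R.cl
  cl := R.cu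
  u₁ := R.l₂
  u₂ := R.l₁
  l₁ := R.u₂
  l₂ := R.u₁

/-- the row pair of `GL(n, k)` -/
def gl (R : RowN G i j) : RowPair (GL n k) k (n → k) where
  ρ₁ x := x.1 i
  ρ₂ x := x.1 j
  cont₁ := continuous_gr i
  cont₂ := continuous_gr j
  ne x := lt_max_of_lt_left (gr_pos x i)
  up t := SpecialLinearGroup.toGL (R.up t).1
  lo t := SpecialLinearGroup.toGL (R.lo t).1
  cont_up := SpecialLinearGroup.continuous_toGL.comp (continuous_subtype_val.comp R.cu)
  cont_lo := SpecialLinearGroup.continuous_toGL.comp (continuous_subtype_val.comp R.cl)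
  up₁ t x := R.u₁ t x.1
  up₂ t x := R.u₂ t x.1
  lo₁ t x := R.l₁ t x.1
  lo₂ t x := R.l₂ t x.1

/-- the compact set -/
def K (R : RowN G i j) : Set G := (R.up '' {t | ‖t‖ ≤ 1}) ∪ (R.lo '' {t | ‖t‖ ≤ 1})

theorem isCompact_K [ProperSpace k] (R : RowN G i j) : IsCompact R.K := by
  have h : IsCompact {t : k | ‖t‖ ≤ 1} := by
    have e : {t : k | ‖t‖ ≤ 1} = Metric.closedBall 0 1 := by
      ext t
      simp
    rw [e]
    exact isCompact_closedBall 0 1
  exact (h.image R.cu).union (h.image R.cl)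

variable {P : Type} [Group P] [TopologicalSpace P] {π : GL n k →* P}

theorem sck (R : RowN G i j) (hker : ∀ z, π z = 1 → ∃ c : k, z.1 = c • (1 : Matrix n n k)) :
    ScK R.gl π := by
  intro z hz
  obtain ⟨c, hc⟩ := hker z hz
  refine ⟨c, fun h0 => ?_, fun x => ?_, fun x => ?_⟩
  · have h1 := gr_pos z i
    rw [hc, h0, zero_smul] at h1
    have h2 : (0 : Matrix n n k) i = 0 := rfl
    rw [h2, norm_zero] at h1
    exact lt_irrefl _ h1
  · change (x.1 * z.1) i = c • x.1 i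
    rw [hc, Matrix.mul_smul, mul_one]
    rfl
  · change (x.1 * z.1) j = c • x.1 j
    rw [hc, Matrix.mul_smul, mul_one]
    rfl

theorem gl_K (R : RowN G i j) {y : P} (hy : y ∈ π '' R.gl.K) :
    ∃ x ∈ R.K, π (SpecialLinearGroup.toGL x.1) = y := by
  obtain ⟨z, hz, rfl⟩ := hy
  rcases hz with ⟨t, ht, rfl⟩ | ⟨t, ht, rfl⟩
  · exact ⟨R.up t, Or.inl ⟨t, by simpa using ht, rfl⟩, rfl⟩
  · exact ⟨R.lo t, Or.inr ⟨t, by simpa using ht, rfl⟩, rfl⟩

end RowN

theorem diag_gr {δ : n → k} (d : SpecialLinearGroup n k) (hd : d.1 = diagonal δ)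
    (N : ℕ) (i : n) (x : GL n k) :
    (SpecialLinearGroup.toGL (d ^ N) * x).1 i = δ i ^ N • x.1 i := by
  have h1 : (SpecialLinearGroup.toGL (d ^ N) * x).1 = diagonal (fun i => δ i ^ N) * x.1 := by
    change (d ^ N).1 * x.1 = _
    rw [Matrix.SpecialLinearGroup.coe_pow, hd, Matrix.diagonal_pow]
    rfl
  rw [h1]
  funext c
  rw [diagonal_mul]
  rfl

theorem dgn_ne {g : SpecialLinearGroup n k} {d : n → k} (hg : g.1 = diagonal d) (i : n) :
    d i ≠ 0 := by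
  intro h0
  have h1 := g.2
  rw [hg, det_diagonal, Finset.prod_eq_zero (Finset.mem_univ i) h0] at h1
  exact zero_ne_one h1

theorem dgn_inv {g : SpecialLinearGroup n k} {d : n → k} (hg : g.1 = diagonal d) :
    (g⁻¹).1 = diagonal fun i => (d i)⁻¹ := by
  have h1 : g.1 * (diagonal fun i => (d i)⁻¹) = 1 := by
    rw [hg, diagonal_mul_diagonal, ← diagonal_one]
    congr 1
    funext i
    exact mul_inv_cancel₀ (dgn_ne hg i)
  have h2 : (g⁻¹).1 * g.1 = 1 := congrArg Subtype.val (inv_mul_cancel g)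
  calc (g⁻¹).1 = (g⁻¹).1 * (g.1 * (diagonal fun i => (d i)⁻¹)) := by rw [h1, Matrix.mul_one]
    _ = _ := by rw [← Matrix.mul_assoc, h2, Matrix.one_mul]

/-- One direction: two rows, a diagonal element which expands the first one more. -/
structure DirG (G : Subgroup (SpecialLinearGroup n k)) where
  i : n
  j : n
  R : RowN G i j
  g : G
  d : n → k
  hg : g.1.1 = diagonal d
  lt : ‖d j‖ < ‖d i‖

/-- the inverse direction -/
noncomputable def DirG.inv (D : DirG G) : DirG G where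
  i := D.j
  j := D.i
  R := D.R.sw
  g := D.g⁻¹
  d := fun i => (D.d i)⁻¹
  hg := dgn_inv D.hg
  lt := by
    rw [norm_inv, norm_inv]
    exact inv_strictAnti₀ (norm_pos_iff.2 (dgn_ne D.hg D.j)) D.lt

variable {P : Type} [Group P] [TopologicalSpace P] {π : GL n k →* P}
  {E : Type} [Group E] [TopologicalSpace E] [MeasurableSpace E] [BorelSpace E]
  {ι : G →* E} {a : E →* P}

theorem DirG.ping (D : DirG G) (hker : ∀ z, π z = 1 → ∃ c : k, z.1 = c • (1 : Matrix n n k))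
    (hq : IsQuotientMap π) (ha : Continuous a)
    (hcomp : ∀ g : G, a (ι g) = π (SpecialLinearGroup.toGL g.1)) (p : ℕ) :
    ∃ (M : ℕ) (κ κ' : Fin p → E), (∀ l, κ l ∈ ι '' D.R.K) ∧ (∀ l, κ' l ∈ ι '' D.R.K) ∧
      PingT E p (fun l => κ l * ι D.g ^ M * κ' l) := by
  letI : MeasurableSpace P := borel P
  haveI : BorelSpace P := ⟨rfl⟩
  have hα : 0 < ‖D.d D.i‖ := (norm_nonneg _).trans_lt D.lt
  have hrow : ∀ (l : n) (N : ℕ) (x : GL n k),
      (SpecialLinearGroup.toGL (D.g ^ N).1 * x).1 l = D.d l ^ N • x.1 l := fun l N x =>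
    diag_gr D.g.1 D.hg N l x
  have hlim : ∀ C : ℝ, ∃ N₀, ∀ N : ℕ, N₀ ≤ N → C * ‖D.d D.j ^ N‖ ≤ ‖D.d D.i ^ N‖ := by
    intro C
    obtain ⟨r, hr⟩ : ∃ r : ℝ, r = ‖D.d D.j‖ / ‖D.d D.i‖ := ⟨_, rfl⟩
    have hr0 : 0 ≤ r := by rw [hr]; positivity
    have hr1 : r < 1 := by rw [hr, div_lt_one hα]; exact D.lt
    obtain ⟨N₀, hN₀⟩ := exists_pow_lt_of_lt_one (show (0 : ℝ) < 1 / (|C| + 1) by positivity) hr1
    refine ⟨N₀, fun N hN => ?_⟩
    have h1 : r ^ N ≤ 1 / (|C| + 1) := (pow_le_pow_of_le_one hr0 hr1.le hN).trans hN₀.le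
    have h2 : (|C| + 1) * r ^ N ≤ 1 := by
      have := mul_le_mul_of_nonneg_left h1 (show (0 : ℝ) ≤ |C| + 1 by positivity)
      rwa [mul_one_div_cancel (by positivity)] at this
    have h3 : ‖D.d D.j‖ ^ N = r ^ N * ‖D.d D.i‖ ^ N := by
      rw [← mul_pow, hr, div_mul_cancel₀ _ hα.ne']
    rw [norm_pow, norm_pow, h3]
    have h4 : 0 ≤ ‖D.d D.i‖ ^ N := by positivity
    have h5 : 0 ≤ r ^ N := pow_nonneg hr0 N
    calc C * (r ^ N * ‖D.d D.i‖ ^ N) = (C * r ^ N) * ‖D.d D.i‖ ^ N := by ring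
      _ ≤ 1 * ‖D.d D.i‖ ^ N := by
          refine mul_le_mul_of_nonneg_right ?_ h4
          have := le_abs_self C
          nlinarith
      _ = _ := one_mul _
  obtain ⟨N₀, hN⟩ := pp_quo (π := π) (D.R.sck hker) hq
    (fun N => SpecialLinearGroup.toGL (D.g ^ N).1) (fun N => D.d D.i ^ N) (fun N => D.d D.j ^ N)
    (fun N x => hrow D.i N x) (fun N x => hrow D.j N x)
    (fun N => pow_ne_zero _ (norm_pos_iff.1 hα)) hlim p
  obtain ⟨κ, κ', Bm, Bp, h1, h2, h3, h4, h5, h6, h7⟩ := hN N₀ le_rfl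
  have h1' := fun l => D.R.gl_K (h1 l)
  have h2' := fun l => D.R.gl_K (h2 l)
  choose s hs1 hs2 using h1'
  choose s' hs1' hs2' using h2'
  refine ⟨N₀, fun l => ι (s l), fun l => ι (s' l), fun l => ⟨_, hs1 l, rfl⟩,
    fun l => ⟨_, hs1' l, rfl⟩, fun l => a ⁻¹' Bm l, fun l => a ⁻¹' Bp l,
    fun l => ha.measurable (h3 l), fun l => ha.measurable (h4 l),
    fun l l' hl => (h5 l l' hl).preimage _, fun l l' hl => (h6 l l' hl).preimage _,
    fun l z hz => ?_⟩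
  change a (ι (s l) * ι D.g ^ N₀ * ι (s' l) * z) ∈ Bp l
  have h8 := h7 l (a z) hz
  rw [← hs2, ← hs2', ← hcomp, ← hcomp, ← hcomp, map_pow] at h8
  simpa only [map_mul, map_pow] using h8

/-- **A chain of any length of `E`.** -/
theorem gchain_dir [ProperSpace k]
    (hker : ∀ z, π z = 1 → ∃ c : k, z.1 = c • (1 : Matrix n n k)) (hq : IsQuotientMap π)
    (hι : Continuous ι) (ha : Continuous a)
    (hcomp : ∀ g : G, a (ι g) = π (SpecialLinearGroup.toGL g.1)) {r : ℕ} (D : Fin r → DirG G)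
    (hb : ∀ i j, i < j → Commute (D i).g (D j).g)
    (hK : ∀ i j, i < j → ∀ x ∈ (D j).R.K, Commute (D i).g x) :
    GChain (fun K : Set E => IsCompact K) (PingT E) r (fun j M => ι (D j).g ^ M)
      (fun j => ι '' (D j).R.K) where
  cpt := fun j => (D j).R.isCompact_K.image hι
  comm_b := fun i j hij N M => ((hb i j hij).map ι).pow_pow N M
  comm_K := by
    rintro i j hij N _ ⟨x, hx, rfl⟩
    exact ((hK i j hij x hx).map ι).pow_left N
  ping := fun j p => (D j).ping hker hq ha hcomp p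

/-- **A nested chain of `E`**: first direction `D₀`, tail in `S` by `θ : S →* G`. -/
theorem gchain_cons [ProperSpace k]
    (hker : ∀ z, π z = 1 → ∃ c : k, z.1 = c • (1 : Matrix n n k)) (hq : IsQuotientMap π)
    (hι : Continuous ι) (ha : Continuous a)
    (hcomp : ∀ g : G, a (ι g) = π (SpecialLinearGroup.toGL g.1)) {S : Type} [Group S]
    {θ : S →* G} (D₀ : DirG G) (h0 : ∀ s, Commute D₀.g (θ s)) {m : ℕ} (T : Fin m → DirG G)
    {gS : Fin m → S} {KS : Fin m → Set S} (hg : ∀ j, θ (gS j) = (T j).g)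
    (hK : ∀ j, θ '' KS j = (T j).R.K) (hc : ∀ i j, i < j → Commute (gS i) (gS j))
    (hcK : ∀ i j, i < j → ∀ x ∈ KS j, Commute (gS i) x) :
    ∃ (b : Fin (m + 1) → ℕ → E) (𝒦 : Fin (m + 1) → Set E),
      GChain (fun K : Set E => IsCompact K) (PingT E) (m + 1) b 𝒦 ∧
      (∀ M, b 0 M = ι D₀.g ^ M) ∧ (∀ j M, (ι.comp θ) (gS j ^ M) = b j.succ M) ∧
      ∀ j, (ι.comp θ) '' KS j = 𝒦 j.succ := by
  refine ⟨_, _, gchain_dir hker hq hι ha hcomp (Fin.cons D₀ T : Fin (m + 1) → DirG G) ?_ ?_,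
    fun M => rfl, fun j M => ?_, fun j => ?_⟩
  · intro i j hij
    obtain ⟨j', rfl⟩ : ∃ j', j = Fin.succ j' := Fin.exists_succ_eq.2 (Fin.pos_iff_ne_zero.1
      ((Fin.zero_le i).trans_lt hij)) |>.imp fun _ h => h.symm
    refine Fin.cases (fun _ => ?_) (fun i' hij => ?_) i hij
    · rw [Fin.cons_zero, Fin.cons_succ, ← hg]
      exact h0 _
    · rw [Fin.cons_succ, Fin.cons_succ, ← hg, ← hg]
      exact (hc i' j' (Fin.succ_lt_succ_iff.1 hij)).map θ
  · intro i j hij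
    obtain ⟨j', rfl⟩ : ∃ j', j = Fin.succ j' := Fin.exists_succ_eq.2 (Fin.pos_iff_ne_zero.1
      ((Fin.zero_le i).trans_lt hij)) |>.imp fun _ h => h.symm
    refine Fin.cases (fun _ => ?_) (fun i' hij => ?_) i hij
    · intro x hx
      rw [Fin.cons_succ, ← hK] at hx
      obtain ⟨y, hy, rfl⟩ := hx
      exact h0 y
    · intro x hx
      rw [Fin.cons_succ, ← hK] at hx
      obtain ⟨y, hy, rfl⟩ := hx
      rw [Fin.cons_succ, ← hg]
      exact (hcK i' j' (Fin.succ_lt_succ_iff.1 hij) y hy).map θ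
  · change ι (θ (gS j ^ M)) = ι (T j).g ^ M
    rw [map_pow, map_pow, hg]
  · change (fun x => ι (θ x)) '' KS j = ι '' (T j).R.K
    rw [← hK, Set.image_image]

end row

section tail

variable {Γ 𝔾 S : Type} [Group 𝔾] [Group S]

/-- The tail of a chain in `S`, commutation given in `S` (no injectivity). -/
theorem gchain_tailC {Cpt : Set 𝔾 → Prop} {Ping : (p : ℕ) → (Fin p → 𝔾) → Prop} {m : ℕ}
    {σ : S →* 𝔾} {b : Fin m → ℕ → S} {𝒦 : Fin m → Set S} {b₀ : Fin (m + 1) → ℕ → 𝔾}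
    {𝒦₀ : Fin (m + 1) → Set 𝔾} (hch : GChain Cpt Ping (m + 1) b₀ 𝒦₀)
    (hcb : ∀ i j, i < j → ∀ N M, b i N * b j M = b j M * b i N)
    (hcK : ∀ i j, i < j → ∀ N, ∀ κ ∈ 𝒦 j, b i N * κ = κ * b i N)
    (hb : ∀ j M, σ (b j M) = b₀ j.succ M) (hK : ∀ j, σ '' 𝒦 j = 𝒦₀ j.succ) :
    GChain (fun 𝒦 => Cpt (σ '' 𝒦)) (fun p u => Ping p fun l => σ (u l)) m b 𝒦 where
  cpt := fun j => by rw [hK]; exact hch.cpt _
  comm_b := hcb
  comm_K := hcK
  ping := fun j p => by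
    obtain ⟨N, κ, κ', h1, h2, h3⟩ := hch.ping j.succ p
    have h1' : ∀ l, ∃ x ∈ 𝒦 j, σ x = κ l := fun l => by
      have := h1 l
      rw [← hK] at this
      exact this
    have h2' : ∀ l, ∃ x ∈ 𝒦 j, σ x = κ' l := fun l => by
      have := h2 l
      rw [← hK] at this
      exact this
    choose x hx hx' using h1'
    choose y hy hy' using h2'
    refine ⟨N, x, y, hx, hy, ?_⟩
    have e : (fun l => σ (x l * b j N * y l)) = fun l => κ l * b₀ j.succ N * κ' l := by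
      funext l
      rw [map_mul, map_mul, hb, hx', hy']
    change Ping p (fun l => σ (x l * b j N * y l))
    rw [e]
    exact h3

open Vale.Agent.P092.H761 (SharpData big up Gaps HS Geo)
open Vale.Agent.P092.H538 (ind)
open Vale.Agent.P092.H218.NR (HMIA pos_tightA residA_of) in
/-- `H218.NR.pos_final` without injectivity of `σ` (commutation given in `S`). -/
theorem pos_finalC {Γ 𝔾 S J : Type} [Group Γ] [DecidableEq Γ] [Group 𝔾] [Group S] [Fintype J]
    [DecidableEq J] {t : ℝ} {mass : 𝔾 → (Γ → ℝ) → ℝ} {Cpt : Set 𝔾 → Prop}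
    {Ping : (p : ℕ) → (Fin p → 𝔾) → Prop} {r m : ℕ} {gap : J → Γ → ℝ} {cl : J → Fin r}
    {b : Fin (m + 1) → ℕ → 𝔾} {𝒦 : Fin (m + 1) → Set 𝔾} {bS : Fin m → ℕ → S} {𝒦S : Fin m → Set S}
    {σ : S →* 𝔾} {A : Finset (Fin r)}
    (h : SharpData t mass Cpt Ping) (hg : Gaps gap cl)
    (hgeo : ∀ θ : Finset J, θ.Nonempty → (∀ i ∈ θ, ∀ j, cl i = cl j → j ∈ θ) → Geo gap θ)
    (hch : GChain Cpt Ping (m + 1) b 𝒦) (hm : 0 < m) (hcard : A.card = m + 1)
    (hA : ∀ ε : ℝ, 0 < ε → ∃ R : ℝ, ∀ u, HS b (m + 1) u →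
      mass u (ind fun g => ∃ a, a ∉ A ∧ a ∈ big gap cl R g) ≤ ε)
    (hσ : ∀ N s, b 0 N * σ s = σ s * b 0 N)
    (hcb : ∀ i j, i < j → ∀ N M, bS i N * bS j M = bS j M * bS i N)
    (hcK : ∀ i j, i < j → ∀ N, ∀ κ ∈ 𝒦S j, bS i N * κ = κ * bS i N)
    (hb : ∀ j M, σ (bS j M) = b j.succ M) (hK : ∀ j, σ '' 𝒦S j = 𝒦 j.succ)
    {cc : Filter S} (hcc : ∀ A ∈ cc, ∃ 𝒦 : Set S, Cpt (σ '' 𝒦) ∧ 1 ∈ 𝒦 ∧ 𝒦ᶜ ⊆ A)
    (he : Tendsto (bS ⟨0, hm⟩) atTop cc) {Mid : J → Prop}
    (hHM : ∀ i₀, Mid i₀ → HMIA mass gap cl A i₀ (b 0) σ cc) {G2 H2 : Γ → ℝ}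
    (hGH : ∀ R : ℝ, ∃ ρ : ℝ, ∀ g, ρ < G2 g → ρ < H2 g →
      (2 ≤ (big gap cl R g).card ∨ ∃ i, Mid i ∧ R ≤ gap i g)) {ε : ℝ} (hε : 0 < ε) :
    ∃ ρ : ℝ, ∀ᶠ N in atTop, mass (b 0 N) (ind fun g => ρ < G2 g ∧ ρ < H2 g) ≤ ε := by
  have hchS := gchain_tailC hch hcb hcK hb hK
  exact pos_tightA (b := b) (e := bS ⟨0, hm⟩) h hg hgeo hch (by omega) hcard hA
    (Nat.succ_pos m) (by omega) hσ (fun i₀ _ => residA_of h hg hgeo hσ hb hchS hA hcard) hcc he
    (fun M => hb ⟨0, hm⟩ M) hHM hGH hε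

end tail

end Vale.Agent.P092.H411.S2
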