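import Vale.Agent.P092.H411.S2.Row
import Vale.Agent.P092.H411.ChS
import Vale.Agent.P092.H303.Form

/-!
P092 (helper411), Tracks 2 / 3 (letters CL), [P2-NRM] part 2: the two nested chains of the group
`FormGroup σ (hyp r ε J₀)` of a form of Witt index at least `r`: wall 1 with tail in the group of the
form with one hyperbolic plane less (`lb`), wall `r` with tail in `SL_r` (`lv`).
-/

set_option linter.all false

open Matrix Set Topology Filter

namespace Vale.Agent.P092.H411.S2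

open Vale.Agent.P092.H303

section lb

variable {ι : Type} [Fintype ι] [DecidableEq ι] {k : Type} [NontriviallyNormedField k] {p : ℕ}

/-- the shift of the indices -/
def sh (x : Idx p ι) : Idx (p + 1) ι :=
  Sum.map (Sum.map Fin.succ Fin.succ) id x

theorem sh_inj : Function.Injective (sh : Idx p ι → Idx (p + 1) ι) :=
  Sum.map_injective.2 ⟨Sum.map_injective.2 ⟨Fin.succ_injective _, Fin.succ_injective _⟩,
    Function.injective_id⟩

/-- the two new indices and the old ones -/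
def spl : Idx (p + 1) ι ≃ Idx p ι ⊕ (Unit ⊕ Unit) where
  toFun x := Sum.elim (Sum.elim
    (fun i => (Fin.cases (Sum.inr (Sum.inl ())) (fun i => Sum.inl (Sum.inl (Sum.inl i))) i :
      Idx p ι ⊕ (Unit ⊕ Unit)))
    (fun i => (Fin.cases (Sum.inr (Sum.inr ())) (fun i => Sum.inl (Sum.inl (Sum.inr i))) i :
      Idx p ι ⊕ (Unit ⊕ Unit)))) (fun x => Sum.inl (Sum.inr x)) x
  invFun y := Sum.elim sh (Sum.elim (fun _ => Sum.inl (Sum.inl 0)) (fun _ => Sum.inl (Sum.inr 0))) y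
  left_inv := by
    rintro ((i | i) | x)
    · refine Fin.cases rfl (fun i => rfl) i
    · refine Fin.cases rfl (fun i => rfl) i
    · rfl
  right_inv := by
    rintro (((i | i) | x) | (i | i)) <;> rfl

theorem spl_sh (x : Idx p ι) : spl (sh x) = Sum.inl x := by
  rcases x with (i | i) | x <;> rfl

theorem spl_symm_inl (x : Idx p ι) : spl.symm (Sum.inl x) = sh x := rfl

/-- the lower block, matrices -/
def lbm {R : Type*} [Zero R] [One R] (A : Matrix (Idx p ι) (Idx p ι) R) :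
    Matrix (Idx (p + 1) ι) (Idx (p + 1) ι) R :=
  (fromBlocks A 0 0 (1 : Matrix (Unit ⊕ Unit) (Unit ⊕ Unit) R)).submatrix spl spl

theorem lbm_mul (A B : Matrix (Idx p ι) (Idx p ι) k) : lbm (A * B) = lbm A * lbm B := by
  rw [lbm, lbm, lbm, submatrix_mul_equiv, fromBlocks_multiply]
  simp

theorem lbm_one : lbm (1 : Matrix (Idx p ι) (Idx p ι) k) = 1 := by
  rw [lbm, fromBlocks_one, submatrix_one_equiv]

theorem lbm_ss (A : Matrix (Idx p ι) (Idx p ι) k) (x y : Idx p ι) : lbm A (sh x) (sh y) = A x y := by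
  rw [lbm, submatrix_apply, spl_sh, spl_sh, fromBlocks_apply₁₁]

theorem det_lbm (A : Matrix (Idx p ι) (Idx p ι) k) : (lbm A).det = A.det := by
  rw [lbm, det_submatrix_equiv_self, det_fromBlocks_zero₂₁, det_one, mul_one]

theorem lbm_inj {A B : Matrix (Idx p ι) (Idx p ι) k} (h : lbm A = lbm B) : A = B := by
  ext x y
  rw [← lbm_ss A, ← lbm_ss B, h]

theorem lbm_diagonal (d : Idx p ι → k) :
    lbm (diagonal d) = diagonal fun x => Sum.elim d (fun _ => 1) (spl x) := by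
  rw [lbm]
  have h1 : (1 : Matrix (Unit ⊕ Unit) (Unit ⊕ Unit) k) = Matrix.diagonal fun _ => 1 := rfl
  rw [h1, fromBlocks_diagonal, submatrix_diagonal_equiv]
  rfl

theorem lbm_transvection (a b : Idx p ι) (t : k) :
    lbm (transvection a b t) = transvection (sh a) (sh b) t := by
  ext x y
  obtain ⟨x, rfl⟩ := spl.symm.surjective x
  obtain ⟨y, rfl⟩ := spl.symm.surjective y
  rw [lbm, submatrix_apply, Equiv.apply_symm_apply, Equiv.apply_symm_apply, transvection,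
    transvection, Matrix.add_apply, Matrix.single_apply, ← spl_symm_inl, ← spl_symm_inl]
  simp only [Equiv.apply_eq_iff_eq, Matrix.one_apply]
  rcases x with x | x <;> rcases y with y | y
  · simp [fromBlocks_apply₁₁, Matrix.add_apply, Matrix.single_apply, Matrix.one_apply]
  · simp
  · simp
  · simp [Matrix.one_apply]

theorem lbm_map {σ : k →+* k} (A : Matrix (Idx p ι) (Idx p ι) k) :
    (lbm A).map σ = lbm (A.map σ) := by
  rw [lbm, lbm, ← submatrix_map, fromBlocks_map, Matrix.map_zero σ (map_zero σ),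
    Matrix.map_zero σ (map_zero σ), Matrix.map_one σ (map_zero σ) (map_one σ)]

theorem lbm_transpose (A : Matrix (Idx p ι) (Idx p ι) k) : (lbm A)ᵀ = lbm Aᵀ := by
  rw [lbm, lbm, transpose_submatrix, fromBlocks_transpose, transpose_one, transpose_zero,
    transpose_zero]

/-- the form on one more hyperbolic plane -/
theorem hyp_eq (ε : k) (J₀ : Matrix ι ι k) : hyp (p + 1) ε J₀ =
    (fromBlocks (hyp p ε J₀) 0 0 (fromBlocks 0 1 (ε • (1 : Matrix Unit Unit k)) 0)).submatrix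
      spl spl := by
  ext x y
  obtain ⟨x, rfl⟩ := spl.symm.surjective x
  obtain ⟨y, rfl⟩ := spl.symm.surjective y
  rw [submatrix_apply, Equiv.apply_symm_apply, Equiv.apply_symm_apply]
  rcases x with ((x | x) | x) | (x | x) <;> rcases y with ((y | y) | y) | (y | y) <;>
    simp [hyp, spl, sh, Matrix.one_apply, Fin.succ_ne_zero, (Fin.succ_ne_zero _).symm]

variable {σ : k →+* k} {ε : k} {J₀ : Matrix ι ι k}

theorem lbm_form {A : Matrix (Idx p ι) (Idx p ι) k}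
    (h : A * hyp p ε J₀ * (A.map σ)ᵀ = hyp p ε J₀) :
    lbm A * hyp (p + 1) ε J₀ * ((lbm A).map σ)ᵀ = hyp (p + 1) ε J₀ := by
  rw [lbm_map, lbm_transpose, hyp_eq, lbm, lbm, submatrix_mul_equiv, submatrix_mul_equiv,
    fromBlocks_multiply, fromBlocks_multiply]
  simp only [Matrix.mul_zero, Matrix.zero_mul, add_zero, zero_add, Matrix.mul_one, Matrix.one_mul,
    h]

/-- **the lower block** `G(p) → G(p + 1)` -/
def lb (σ : k →+* k) (ε : k) (J₀ : Matrix ι ι k) (p : ℕ) :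
    FormGroup σ (hyp p ε J₀) →* FormGroup σ (hyp (p + 1) ε J₀) where
  toFun g := ⟨⟨lbm g.1.1, by rw [det_lbm]; exact g.1.2⟩, lbm_form g.2⟩
  map_one' := by
    apply Subtype.ext
    apply Subtype.ext
    exact lbm_one
  map_mul' g h := by
    apply Subtype.ext
    apply Subtype.ext
    exact lbm_mul g.1.1 h.1.1

theorem lb_coe (g : FormGroup σ (hyp p ε J₀)) : (lb σ ε J₀ p g).1.1 = lbm g.1.1 := rfl

theorem lb_inj : Function.Injective (lb σ ε J₀ p) := fun g h hgh =>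
  Subtype.ext (Subtype.ext (lbm_inj (congrArg (fun x => x.1.1) hgh)))

theorem continuous_lbm : Continuous (lbm : Matrix (Idx p ι) (Idx p ι) k → _) := by
  refine continuous_matrix fun x y => ?_
  obtain ⟨x, rfl⟩ := spl.symm.surjective x
  obtain ⟨y, rfl⟩ := spl.symm.surjective y
  simp only [lbm, submatrix_apply, Equiv.apply_symm_apply]
  rcases x with x | x <;> rcases y with y | y
  · simp only [fromBlocks_apply₁₁]
    exact continuous_id.matrix_elem x y
  · simp only [fromBlocks_apply₁₂]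
    exact continuous_const
  · simp only [fromBlocks_apply₂₁]
    exact continuous_const
  · simp only [fromBlocks_apply₂₂]
    exact continuous_const

theorem continuous_lb : Continuous (lb σ ε J₀ p) := by
  refine Continuous.subtype_mk (Continuous.subtype_mk ?_ _) _
  exact continuous_lbm.comp (continuous_subtype_val.comp continuous_subtype_val)

/-- an element which is scalar on the block commutes with the block -/
theorem comm_lb {g : FormGroup σ (hyp (p + 1) ε J₀)} {d : Idx (p + 1) ι → k}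
    (hg : g.1.1 = diagonal d) (hd : ∀ x y : Idx p ι, d (sh x) = d (sh y))
    (s : FormGroup σ (hyp p ε J₀)) : Commute g (lb σ ε J₀ p s) := by
  apply Subtype.ext
  apply Subtype.ext
  change g.1.1 * lbm s.1.1 = lbm s.1.1 * g.1.1
  rw [hg]
  ext x y
  obtain ⟨x, rfl⟩ := spl.symm.surjective x
  obtain ⟨y, rfl⟩ := spl.symm.surjective y
  rw [diagonal_mul, mul_diagonal, lbm, submatrix_apply, Equiv.apply_symm_apply,
    Equiv.apply_symm_apply]
  rcases x with x | x <;> rcases y with y | y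
  · rw [spl_symm_inl, spl_symm_inl, hd x y, mul_comm]
  · simp
  · simp
  · rw [fromBlocks_apply₂₂, Matrix.one_apply]
    by_cases h : x = y
    · rw [if_pos h, h, mul_comm]
    · rw [if_neg h, mul_zero, zero_mul]

end lb


/-! ### The rows of the form -/

section rows

variable {ι : Type} [Fintype ι] [DecidableEq ι] {k : Type} [NontriviallyNormedField k]
  {σ : k →+* k} {ε : k} {J₀ : Matrix ι ι k}

theorem r2_row_a {n : Type} [Fintype n] [DecidableEq n] {a b c d : n} (h : a ≠ b) (h' : c ≠ d)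
    (t s : k) (hac : a ≠ c) (hbc : b ≠ c) (X : Matrix n n k) :
    ((root2 h h' t s).1 * X) a = X a + t • X b := by
  funext e
  change (transvection a b t * transvection c d s * X) a e = _
  rw [Matrix.mul_assoc, transvection_mul_apply_same, transvection_mul_apply_of_ne _ _ _ _ hac,
    transvection_mul_apply_of_ne _ _ _ _ hbc]
  rfl

theorem r2_row_b {n : Type} [Fintype n] [DecidableEq n] {a b c d : n} (h : a ≠ b) (h' : c ≠ d)
    (t s : k) (hbc : b ≠ c) (X : Matrix n n k) : ((root2 h h' t s).1 * X) b = X b := by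
  funext e
  change (transvection a b t * transvection c d s * X) b e = _
  rw [Matrix.mul_assoc, transvection_mul_apply_of_ne _ _ _ _ h.symm,
    transvection_mul_apply_of_ne _ _ _ _ hbc]

/-- The rows of the `j`-th root. -/
def fRow (q : ℕ) (J₀ : Matrix ι ι k) (hσc : Continuous σ) (hσ : ∀ x, σ (σ x) = x)
    (hε : ε * ε = 1) (hσε : σ ε = ε) (j : Fin (q + 2)) :
    RowN (FormGroup σ (hyp (q + 2) ε J₀)) (ra q ι j) (rb q ι j) where
  up t := ⟨_, up_mem q hσ hε hσε j t⟩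
  lo t := ⟨_, lo_mem q hσ hε hσε j t⟩
  cu := (continuous_root2 _ _ continuous_id (by fun_prop)).subtype_mk _
  cl := (continuous_root2 _ _ continuous_id (by fun_prop)).subtype_mk _
  u₁ t X := r2_row_a (ra_ne_rb q j) (ra'_ne_rb' q j).symm t (sg q ε j * σ t)
    (ra_ne_rb' q j) (rb_ne_rb' q j) X
  u₂ t X := r2_row_b (ra_ne_rb q j) (ra'_ne_rb' q j).symm t (sg q ε j * σ t)
    (rb_ne_rb' q j) X
  l₁ t X := r2_row_b (ra_ne_rb q j).symm (ra'_ne_rb' q j) t (sg q ε j * σ t)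
    (ra_ne_ra' q j) X
  l₂ t X := r2_row_a (ra_ne_rb q j).symm (ra'_ne_rb' q j) t (sg q ε j * σ t)
    (rb_ne_ra' q j) (ra_ne_ra' q j) X

theorem sh_ra (q : ℕ) (j : Fin (q + 2)) : sh (ra q ι j) = ra (q + 1) ι j.succ := by
  unfold ra
  by_cases h : (j : ℕ) = q + 1
  · rw [if_pos h, if_pos (by rw [Fin.val_succ, h])]
    rfl
  · rw [if_neg h, if_neg (by rw [Fin.val_succ]; omega)]
    rfl

theorem sh_rb (q : ℕ) (j : Fin (q + 2)) : sh (rb q ι j) = rb (q + 1) ι j.succ := by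
  unfold rb
  by_cases h : (j : ℕ) = q + 1
  · rw [dif_pos h, dif_pos (by rw [Fin.val_succ, h])]
    rfl
  · rw [dif_neg h, dif_neg (by rw [Fin.val_succ]; omega)]
    rfl

theorem sh_ra' (q : ℕ) (j : Fin (q + 2)) : sh (ra' q ι j) = ra' (q + 1) ι j.succ := by
  unfold ra'
  by_cases h : (j : ℕ) = q + 1
  · rw [if_pos h, if_pos (by rw [Fin.val_succ, h])]
    rfl
  · rw [if_neg h, if_neg (by rw [Fin.val_succ]; omega)]
    rfl

theorem sh_rb' (q : ℕ) (j : Fin (q + 2)) : sh (rb' q ι j) = rb' (q + 1) ι j.succ := by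
  unfold rb'
  by_cases h : (j : ℕ) = q + 1
  · rw [dif_pos h, dif_pos (by rw [Fin.val_succ, h])]
    rfl
  · rw [dif_neg h, dif_neg (by rw [Fin.val_succ]; omega)]
    rfl

theorem sg_succ (q : ℕ) (ε : k) (j : Fin (q + 2)) : sg (q + 1) ε j.succ = sg q ε j := by
  unfold sg
  by_cases h : (j : ℕ) = q + 1
  · rw [if_pos h, if_pos (by rw [Fin.val_succ, h])]
  · rw [if_neg h, if_neg (by rw [Fin.val_succ]; omega)]

/-- the block of a root element -/
theorem lbm_root2 {p : ℕ} {a b c d : Idx p ι} {a' b' c' d' : Idx (p + 1) ι} (h : a ≠ b)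
    (h' : c ≠ d) (g : a' ≠ b') (g' : c' ≠ d') (ha : sh a = a') (hb : sh b = b') (hc : sh c = c')
    (hd : sh d = d') (t s : k) : lbm (root2 h h' t s).1 = (root2 g g' t s).1 := by
  change lbm (transvection a b t * transvection c d s) = transvection a' b' t * transvection c' d' s
  rw [lbm_mul, lbm_transvection, lbm_transvection, ha, hb, hc, hd]

theorem lb_up (q : ℕ) (hσc : Continuous σ) (hσ : ∀ x, σ (σ x) = x)
    (hε : ε * ε = 1) (hσε : σ ε = ε) (j : Fin (q + 2)) (t : k) :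
    lb σ ε J₀ (q + 2) ((fRow q J₀ hσc hσ hε hσε j).up t) =
      (fRow (q + 1) J₀ hσc hσ hε hσε j.succ).up t := by
  apply Subtype.ext
  apply Subtype.ext
  change lbm (root2 (ra_ne_rb q j) (ra'_ne_rb' q j).symm t (sg q ε j * σ t)).1 =
    (root2 (ra_ne_rb (q + 1) j.succ) (ra'_ne_rb' (q + 1) j.succ).symm t
      (sg (q + 1) ε j.succ * σ t)).1
  rw [sg_succ]
  exact lbm_root2 _ _ _ _ (sh_ra q j) (sh_rb q j) (sh_rb' q j) (sh_ra' q j) _ _

theorem lb_lo (q : ℕ) (hσc : Continuous σ) (hσ : ∀ x, σ (σ x) = x)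
    (hε : ε * ε = 1) (hσε : σ ε = ε) (j : Fin (q + 2)) (t : k) :
    lb σ ε J₀ (q + 2) ((fRow q J₀ hσc hσ hε hσε j).lo t) =
      (fRow (q + 1) J₀ hσc hσ hε hσε j.succ).lo t := by
  apply Subtype.ext
  apply Subtype.ext
  change lbm (root2 (ra_ne_rb q j).symm (ra'_ne_rb' q j) t (sg q ε j * σ t)).1 =
    (root2 (ra_ne_rb (q + 1) j.succ).symm (ra'_ne_rb' (q + 1) j.succ) t
      (sg (q + 1) ε j.succ * σ t)).1
  rw [sg_succ]
  exact lbm_root2 _ _ _ _ (sh_rb q j) (sh_ra q j) (sh_ra' q j) (sh_rb' q j) _ _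

theorem lb_K (q : ℕ) (hσc : Continuous σ) (hσ : ∀ x, σ (σ x) = x)
    (hε : ε * ε = 1) (hσε : σ ε = ε) (j : Fin (q + 2)) :
    lb σ ε J₀ (q + 2) '' (fRow q J₀ hσc hσ hε hσε j).K =
      (fRow (q + 1) J₀ hσc hσ hε hσε j.succ).K := by
  rw [RowN.K, RowN.K, Set.image_union, Set.image_image, Set.image_image]
  congr 1
  · exact Set.image_congr fun t _ => lb_up q hσc hσ hε hσε j t
  · exact Set.image_congr fun t _ => lb_lo q hσc hσ hε hσε j t

/-- the torus of the form -/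
def tF (σ : k →+* k) (ε : k) (J₀ : Matrix ι ι k) (q : ℕ) {w : k} (hw : w ≠ 0) (hσw : σ w = w)
    (l : Fin q → ℤ) : FormGroup σ (hyp q ε J₀) := ⟨torF q ι hw l, torF_mem q ε J₀ hw hσw l⟩

theorem lb_tF (q : ℕ) {w : k} (hw : w ≠ 0) (hσw : σ w = w) (l : Fin q → ℤ) :
    lb σ ε J₀ q (tF σ ε J₀ q hw hσw l) = tF σ ε J₀ (q + 1) hw hσw (Fin.cons 0 l) := by
  apply Subtype.ext
  apply Subtype.ext
  change lbm (Matrix.diagonal (dgF q ι w l)) = Matrix.diagonal (dgF (q + 1) ι w (Fin.cons 0 l))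
  rw [lbm_diagonal]
  congr 1
  funext x
  obtain ⟨x, rfl⟩ := spl.symm.surjective x
  rw [Equiv.apply_symm_apply]
  rcases x with ((x | x) | x) | (x | x) <;> simp [spl, sh, dgF]

theorem lam_cons (q : ℕ) (j : Fin (q + 2)) :
    (Fin.cons 0 (lam q j) : Fin (q + 3) → ℤ) = lam (q + 1) j.succ := by
  funext i
  have hj := j.2
  refine Fin.cases ?_ (fun i => ?_) i
  · rw [Fin.cons_zero, lam]
    by_cases h1 : (j : ℕ) < q
    · rw [if_pos (by rw [Fin.val_succ]; omega), if_neg (Fin.succ_ne_zero j).symm]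
    · rw [if_neg (by rw [Fin.val_succ]; omega), if_neg (by rw [Fin.val_zero]; omega),
        if_neg (by rw [Fin.val_zero]; omega)]
  · rw [Fin.cons_succ]
    unfold lam
    simp only [Fin.val_succ, Fin.succ_inj, Nat.add_right_cancel_iff, Nat.add_lt_add_iff_right]

end rows

/-! ### Wall 1 -/

section wall1

variable {ι : Type} [Fintype ι] [DecidableEq ι] {k : Type} [NontriviallyNormedField k]
  {σ : k →+* k} {ε : k} {J₀ : Matrix ι ι k}

theorem tF_comm (q : ℕ) {w : k} (hw : w ≠ 0) (hσw : σ w = w) (l l' : Fin q → ℤ) :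
    Commute (tF σ ε J₀ q hw hσw l) (tF σ ε J₀ q hw hσw l') :=
  Subtype.ext (torF_comm q hw l l')

theorem tF_up (q : ℕ) (hσc : Continuous σ) (hσ : ∀ x, σ (σ x) = x)
    (hε : ε * ε = 1) (hσε : σ ε = ε) {w : k} (hw : w ≠ 0) (hσw : σ w = w) {i j : Fin (q + 2)}
    (hij : i < j) {x : FormGroup σ (hyp (q + 2) ε J₀)}
    (hx : x ∈ (fRow q J₀ hσc hσ hε hσε j).K) :
    Commute (tF σ ε J₀ (q + 2) hw hσw (lam q i)) x := by
  have e := dg_eq (ι := ι) q w hij
  have e' : dgF (q + 2) ι w (lam q i) (ra' q ι j) = dgF (q + 2) ι w (lam q i) (rb' q ι j) := by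
    rw [dg_ra q hw, dg_rb q hw, e]
  rcases hx with ⟨t, -, rfl⟩ | ⟨t, -, rfl⟩
  · apply Subtype.ext
    exact torF_root2 (q + 2) hw (lam q i) (ra_ne_rb q j) (ra'_ne_rb' q j).symm e e'.symm
      t (sg q ε j * σ t)
  · apply Subtype.ext
    exact torF_root2 (q + 2) hw (lam q i) (ra_ne_rb q j).symm (ra'_ne_rb' q j) e.symm e'
      t (sg q ε j * σ t)

/-- The `j`-th direction of the group of the form. -/
def fDir (q : ℕ) (J₀ : Matrix ι ι k) (hσc : Continuous σ) (hσ : ∀ x, σ (σ x) = x)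
    (hε : ε * ε = 1) (hσε : σ ε = ε) {w : k} (hw1 : 1 < ‖w‖) (hw : w ≠ 0) (hσw : σ w = w)
    (j : Fin (q + 2)) : DirG (FormGroup σ (hyp (q + 2) ε J₀)) where
  i := ra q ι j
  j := rb q ι j
  R := fRow q J₀ hσc hσ hε hσε j
  g := tF σ ε J₀ (q + 2) hw hσw (lam q j)
  d := dgF (q + 2) ι w (lam q j)
  hg := rfl
  lt := by
    obtain ⟨e, e1, e2, he⟩ := dg_ratio (ι := ι) q w j
    rw [e1, e2, norm_zpow]
    have h1 : ‖w‖ ^ (-e) ≤ 1 := by
      rw [_root_.zpow_neg]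
      exact inv_le_one_of_one_le₀ (one_le_zpow₀ hw1.le he)
    exact h1.trans_lt hw1

/-- the sequences of the tail of wall 1 -/
def gS1 (σ : k →+* k) (ε : k) (J₀ : Matrix ι ι k) (q : ℕ) {w : k} (hw : w ≠ 0) (hσw : σ w = w)
    (j : Fin (q + 2)) : FormGroup σ (hyp (q + 2) ε J₀) := tF σ ε J₀ (q + 2) hw hσw (lam q j)

theorem gS1_comm (q : ℕ) {w : k} (hw : w ≠ 0) (hσw : σ w = w) (i j : Fin (q + 2)) (N M : ℕ) :
    gS1 σ ε J₀ q hw hσw i ^ N * gS1 σ ε J₀ q hw hσw j ^ M =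
      gS1 σ ε J₀ q hw hσw j ^ M * gS1 σ ε J₀ q hw hσw i ^ N :=
  (tF_comm (q + 2) hw hσw (lam q i) (lam q j)).pow_pow N M

theorem gS1_commK (q : ℕ) (hσc : Continuous σ) (hσ : ∀ x, σ (σ x) = x)
    (hε : ε * ε = 1) (hσε : σ ε = ε) {w : k} (hw : w ≠ 0) (hσw : σ w = w) {i j : Fin (q + 2)}
    (hij : i < j) (N : ℕ) {x : FormGroup σ (hyp (q + 2) ε J₀)}
    (hx : x ∈ (fRow q J₀ hσc hσ hε hσε j).K) :
    gS1 σ ε J₀ q hw hσw i ^ N * x = x * gS1 σ ε J₀ q hw hσw i ^ N :=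
  (tF_up q hσc hσ hε hσε hw hσw hij hx).pow_left N

/-- the first direction of the tail tends to infinity -/
theorem gS1_tendsto (q : ℕ) {w : k} (hw1 : 1 < ‖w‖) (hw : w ≠ 0) (hσw : σ w = w) :
    Tendsto (fun M : ℕ => gS1 σ ε J₀ q hw hσw ⟨0, by omega⟩ ^ M) atTop
      (cocompact (FormGroup σ (hyp (q + 2) ε J₀))) := by
  have h0 : ra q ι ⟨0, by omega⟩ = (Sum.inl (Sum.inl 0) : Idx (q + 2) ι) := by
    unfold ra
    rw [if_neg (by simp)]
    rfl
  obtain ⟨e, e1, -⟩ := dg_ratio (ι := ι) q w ⟨0, by omega⟩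
  rw [h0] at e1
  have he : ∀ M : ℕ, (gS1 σ ε J₀ q hw hσw ⟨0, by omega⟩ ^ M).1.1 (Sum.inl (Sum.inl 0))
      (Sum.inl (Sum.inl 0)) = w ^ M := by
    intro M
    have h1 : (gS1 σ ε J₀ q hw hσw ⟨0, by omega⟩ ^ M).1.1 =
        Matrix.diagonal (fun i => dgF (q + 2) ι w (lam q ⟨0, by omega⟩) i ^ M) := by
      change ((gS1 σ ε J₀ q hw hσw ⟨0, by omega⟩).1 ^ M).1 = _
      rw [Matrix.SpecialLinearGroup.coe_pow]
      change (Matrix.diagonal (dgF (q + 2) ι w (lam q ⟨0, by omega⟩))) ^ M = _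
      rw [Matrix.diagonal_pow]
      rfl
    rw [h1, diagonal_apply_eq, e1]
  have hco : Continuous fun g : FormGroup σ (hyp (q + 2) ε J₀) =>
      ‖g.1.1 (Sum.inl (Sum.inl 0)) (Sum.inl (Sum.inl 0))‖ := by
    have h : Continuous fun g : FormGroup σ (hyp (q + 2) ε J₀) => g.1.1 :=
      continuous_subtype_val.comp continuous_subtype_val
    exact (h.matrix_elem _ _).norm
  rw [hasBasis_cocompact.tendsto_right_iff]
  intro K hK
  obtain ⟨R, hR⟩ := (hK.image hco).bddAbove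
  obtain ⟨N₀, hN₀⟩ := pow_unbounded_of_one_lt R hw1
  filter_upwards [eventually_ge_atTop N₀] with M hM hmem
  have h1 : ‖(gS1 σ ε J₀ q hw hσw ⟨0, by omega⟩ ^ M).1.1 (Sum.inl (Sum.inl 0))
      (Sum.inl (Sum.inl 0))‖ ≤ R := hR ⟨_, hmem, rfl⟩
  rw [he, norm_pow] at h1
  have h2 : ‖w‖ ^ N₀ ≤ ‖w‖ ^ M := pow_le_pow_right₀ hw1.le hM
  linarith

variable {P : Type} [Group P] [TopologicalSpace P] {q : ℕ}
  {π : GL (Idx (q + 3) ι) k →* P}
  {E : Type} [Group E] [TopologicalSpace E] [MeasurableSpace E] [BorelSpace E]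
  {i₁ : FormGroup σ (hyp (q + 3) ε J₀) →* E} {a : E →* P}

/-- **The nested chains of wall 1**: `g₀` expands `e_1`, more than `e_2`, and is scalar on the block. -/
theorem chain1 [ProperSpace k] (hσc : Continuous σ) (hσ : ∀ x, σ (σ x) = x)
    (hε : ε * ε = 1) (hσε : σ ε = ε)
    (hker : ∀ z, π z = 1 → ∃ c : k, z.1 = c • (1 : Matrix (Idx (q + 3) ι) (Idx (q + 3) ι) k))
    (hq : IsQuotientMap π) (hι : Continuous i₁) (ha : Continuous a)
    (hcomp : ∀ g : FormGroup σ (hyp (q + 3) ε J₀), a (i₁ g) = π (SpecialLinearGroup.toGL g.1))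
    {w : k} (hw1 : 1 < ‖w‖) (hw : w ≠ 0) (hσw : σ w = w)
    {g₀ : FormGroup σ (hyp (q + 3) ε J₀)} {d₀ : Idx (q + 3) ι → k}
    (hg₀ : g₀.1.1 = Matrix.diagonal d₀) (hd : ∀ x y : Idx (q + 2) ι, d₀ (sh x) = d₀ (sh y))
    (hlt : ‖d₀ (Sum.inl (Sum.inl 1))‖ < ‖d₀ (Sum.inl (Sum.inl 0))‖) :
    ∀ g₁ : FormGroup σ (hyp (q + 3) ε J₀), g₁ = g₀ ∨ g₁ = g₀⁻¹ →
    ∃ (b : Fin (q + 3) → ℕ → E) (𝒦 : Fin (q + 3) → Set E),
      H761.GChain (fun K : Set E => IsCompact K) (H261.PingT E) (q + 3) b 𝒦 ∧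
      (∀ M, b 0 M = i₁ g₁ ^ M) ∧
      (∀ j M, (i₁.comp (lb σ ε J₀ (q + 2))) (gS1 σ ε J₀ q hw hσw j ^ M) = b j.succ M) ∧
      ∀ j, (i₁.comp (lb σ ε J₀ (q + 2))) '' (fRow q J₀ hσc hσ hε hσε j).K = 𝒦 j.succ := by
  have h0 : ra (q + 1) ι ⟨0, by omega⟩ = (Sum.inl (Sum.inl 0) : Idx (q + 3) ι) := by
    unfold ra
    rw [if_neg (by simp)]
    rfl
  have h0' : rb (q + 1) ι ⟨0, by omega⟩ = (Sum.inl (Sum.inl 1) : Idx (q + 3) ι) := by
    unfold rb
    rw [dif_neg (by simp)]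
    rfl
  obtain ⟨D₀, hD₀⟩ : ∃ D : DirG (FormGroup σ (hyp (q + 3) ε J₀)), D.g = g₀ :=
    ⟨{ i := _
       j := _
       R := fRow (q + 1) J₀ hσc hσ hε hσε ⟨0, by omega⟩
       g := g₀
       d := d₀
       hg := hg₀
       lt := by rw [h0, h0']; exact hlt }, rfl⟩
  have hcm : ∀ s, Commute g₀ (lb σ ε J₀ (q + 2) s) := comm_lb hg₀ hd
  intro g₁ hg₁
  obtain ⟨D₁, hD₁⟩ : ∃ D : DirG (FormGroup σ (hyp (q + 3) ε J₀)), D.g = g₁ := by
    rcases hg₁ with rfl | rfl
    · exact ⟨D₀, hD₀⟩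
    · exact ⟨D₀.inv, by rw [← hD₀]; rfl⟩
  have hcm₁ : ∀ s, Commute D₁.g (lb σ ε J₀ (q + 2) s) := by
    intro s
    rw [hD₁]
    rcases hg₁ with rfl | rfl
    · exact hcm s
    · exact (hcm s).inv_left
  obtain ⟨b, 𝒦, h1, h2, h3, h4⟩ := gchain_cons hker hq hι ha hcomp D₁ hcm₁
    (fun j : Fin (q + 2) => fDir (q + 1) J₀ hσc hσ hε hσε hw1 hw hσw j.succ)
    (gS := gS1 σ ε J₀ q hw hσw) (KS := fun j => (fRow q J₀ hσc hσ hε hσε j).K)
    (fun j => by
      change lb σ ε J₀ (q + 2) (tF σ ε J₀ (q + 2) hw hσw (lam q j)) = _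
      rw [lb_tF, lam_cons]
      rfl)
    (fun j => lb_K q hσc hσ hε hσε j) (fun i j _ => tF_comm (q + 2) hw hσw (lam q i) (lam q j))
    (fun i j hij x hx => tF_up q hσc hσ hε hσε hw hσw hij hx)
  exact ⟨b, 𝒦, h1, fun M => by rw [h2, hD₁], h3, h4⟩

end wall1

end Vale.Agent.P092.H411.S2
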