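import Vale.Agent.P092.H411.S2.Form

/-!
P092 (helper411), Tracks 2 / 3 (letters CL), [P2-NRM] part 3: wall `r`: the Levi block
`lv : SL_r → FormGroup σ (hyp r ε J₀)`, `g ↦ (g, σ(g)^{-T}, 1)`, and the nested chains of wall `r`.
-/

set_option linter.all false

open Matrix Set Topology Filter

namespace Vale.Agent.P092.H411.S2

open Vale.Agent.P092.H303
open Vale.Agent.P092.H701 (tor dg elem slRow dg_self dg_gt tor_comm tor_elem)
open Vale.Agent.P092.H411.ChS (bS KS)
open Vale.Agent.P092.RC (GG)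

section lv

variable {ι : Type} [Fintype ι] [DecidableEq ι] {k : Type} [NontriviallyNormedField k] {p : ℕ}
  {σ : k →+* k} {ε : k} {J₀ : Matrix ι ι k}

/-- the Levi block, matrices -/
def lvm (ι : Type) [Fintype ι] [DecidableEq ι] (A B : Matrix (Fin p) (Fin p) k) :
    Matrix (Idx p ι) (Idx p ι) k :=
  fromBlocks (fromBlocks A 0 0 B) 0 0 (1 : Matrix ι ι k)

theorem lvm_mul (A B A' B' : Matrix (Fin p) (Fin p) k) :
    lvm ι A B * lvm ι A' B' = lvm ι (A * A') (B * B') := by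
  rw [lvm, lvm, lvm, fromBlocks_multiply, fromBlocks_multiply]
  simp

theorem lvm_one : lvm ι (1 : Matrix (Fin p) (Fin p) k) 1 = 1 := by
  rw [lvm, fromBlocks_one, fromBlocks_one]

theorem det_lvm (A B : Matrix (Fin p) (Fin p) k) : (lvm ι A B).det = A.det * B.det := by
  rw [lvm, det_fromBlocks_zero₂₁, det_fromBlocks_zero₂₁, det_one, mul_one]

theorem lvm_form (hσ : ∀ x, σ (σ x) = x) {A B : Matrix (Fin p) (Fin p) k}
    (h1 : A * (B.map σ)ᵀ = 1) (h2 : B * (A.map σ)ᵀ = 1) :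
    lvm ι A B * hyp p ε J₀ * ((lvm ι A B).map σ)ᵀ = hyp p ε J₀ := by
  rw [lvm, hyp, fromBlocks_map, fromBlocks_map, fromBlocks_transpose, fromBlocks_transpose]
  simp only [fromBlocks_multiply, Matrix.map_zero σ (map_zero σ), Matrix.map_one σ (map_zero σ) (map_one σ),
    transpose_zero, transpose_one, Matrix.mul_zero, Matrix.zero_mul, add_zero, zero_add,
    Matrix.mul_one, Matrix.one_mul, h1, Matrix.mul_smul, Matrix.smul_mul, h2, smul_zero]

/-- the dual of `g` -/
def dual (σ : k →+* k) (g : SpecialLinearGroup (Fin p) k) : Matrix (Fin p) (Fin p) k :=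
  ((g⁻¹).1.map σ)ᵀ

theorem dual_mul (g h : SpecialLinearGroup (Fin p) k) :
    dual σ (g * h) = dual σ g * dual σ h := by
  rw [dual, dual, dual, _root_.mul_inv_rev, ← transpose_mul, ← Matrix.map_mul]
  rfl

theorem dual_one : dual σ (1 : SpecialLinearGroup (Fin p) k) = 1 := by
  rw [dual, inv_one]
  change ((1 : Matrix (Fin p) (Fin p) k).map σ)ᵀ = 1
  rw [Matrix.map_one σ (map_zero σ) (map_one σ), transpose_one]

theorem det_dual (g : SpecialLinearGroup (Fin p) k) : (dual σ g).det = 1 := by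
  rw [dual, det_transpose, ← RingHom.mapMatrix_apply, ← RingHom.map_det, (g⁻¹).2, map_one]

theorem dual_1 (hσ : ∀ x, σ (σ x) = x) (g : SpecialLinearGroup (Fin p) k) :
    g.1 * ((dual σ g).map σ)ᵀ = 1 := by
  have h1 : ((dual σ g).map σ)ᵀ = (g⁻¹).1 := by
    rw [dual, transpose_map, transpose_transpose, Matrix.map_map]
    ext i j
    exact hσ _
  rw [h1]
  exact congrArg Subtype.val (mul_inv_cancel g)

theorem dual_2 (g : SpecialLinearGroup (Fin p) k) : dual σ g * (g.1.map σ)ᵀ = 1 := by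
  rw [dual, ← transpose_mul, ← Matrix.map_mul]
  have h1 : g.1 * (g⁻¹).1 = 1 := congrArg Subtype.val (mul_inv_cancel g)
  rw [h1, Matrix.map_one σ (map_zero σ) (map_one σ), transpose_one]

/-- **the Levi block** `SL_p → G(p)` -/
def lv (σ : k →+* k) (ε : k) (J₀ : Matrix ι ι k) (hσ : ∀ x, σ (σ x) = x) (p : ℕ) :
    SpecialLinearGroup (Fin p) k →* FormGroup σ (hyp p ε J₀) where
  toFun g := ⟨⟨lvm ι g.1 (dual σ g), by rw [det_lvm, g.2, det_dual, mul_one]⟩,
    lvm_form hσ (dual_1 hσ g) (dual_2 g)⟩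
  map_one' := by
    apply Subtype.ext
    apply Subtype.ext
    change lvm ι (1 : Matrix (Fin p) (Fin p) k) (dual σ 1) = 1
    rw [dual_one, lvm_one]
  map_mul' g h := by
    apply Subtype.ext
    apply Subtype.ext
    change lvm ι (g.1 * h.1) (dual σ (g * h)) = lvm ι g.1 (dual σ g) * lvm ι h.1 (dual σ h)
    rw [lvm_mul, dual_mul]

theorem lv_coe (hσ : ∀ x, σ (σ x) = x) (g : SpecialLinearGroup (Fin p) k) :
    (lv σ ε J₀ hσ p g).1.1 = lvm ι g.1 (dual σ g) := rfl

theorem continuous_lv (hσc : Continuous σ) (hσ : ∀ x, σ (σ x) = x) :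
    Continuous (lv σ ε J₀ hσ p) := by
  refine Continuous.subtype_mk (Continuous.subtype_mk ?_ _) _
  have h0 : Continuous fun g : SpecialLinearGroup (Fin p) k => g.1 := continuous_subtype_val
  have h1 : Continuous fun g : SpecialLinearGroup (Fin p) k => (g⁻¹).1 :=
    continuous_subtype_val.comp continuous_inv
  have h2 : Continuous fun g : SpecialLinearGroup (Fin p) k => dual σ g :=
    (h1.matrix_map hσc).matrix_transpose
  exact (h0.matrix_fromBlocks continuous_const continuous_const h2).matrix_fromBlocks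
    continuous_const continuous_const continuous_const

/-- an element which is scalar on both halves commutes with the Levi block -/
theorem comm_lv (hσ : ∀ x, σ (σ x) = x) {g : FormGroup σ (hyp p ε J₀)} {d : Idx p ι → k}
    (hg : g.1.1 = Matrix.diagonal d)
    (h1 : ∀ i j : Fin p, d (Sum.inl (Sum.inl i)) = d (Sum.inl (Sum.inl j)))
    (h2 : ∀ i j : Fin p, d (Sum.inl (Sum.inr i)) = d (Sum.inl (Sum.inr j)))
    (s : SpecialLinearGroup (Fin p) k) : Commute g (lv σ ε J₀ hσ p s) := by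
  apply Subtype.ext
  apply Subtype.ext
  change g.1.1 * lvm ι s.1 (dual σ s) = lvm ι s.1 (dual σ s) * g.1.1
  rw [hg]
  ext x y
  rw [diagonal_mul, mul_diagonal, lvm]
  rcases x with (x | x) | x <;> rcases y with (y | y) | y
  · simp only [fromBlocks_apply₁₁]
    rw [h1 x y, mul_comm]
  · simp
  · simp
  · simp
  · simp only [fromBlocks_apply₁₁, fromBlocks_apply₂₂]
    rw [h2 x y, mul_comm]
  · simp
  · simp
  · simp
  · rw [fromBlocks_apply₂₂, Matrix.one_apply]
    by_cases h : x = y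
    · rw [if_pos h, h, mul_comm]
    · rw [if_neg h, mul_zero, zero_mul]

theorem elem_inv {i j : Fin p} (h : i ≠ j) (t : k) : (elem h t)⁻¹ = elem h (-t) := by
  rw [inv_eq_iff_mul_eq_one]
  apply Subtype.ext
  change transvection i j t * transvection i j (-t) = 1
  rw [transvection_mul_transvection_same i j h, add_neg_cancel, transvection_zero]

theorem dual_elem {i j : Fin p} (h : i ≠ j) (t : k) :
    dual σ (elem h t) = transvection j i (-σ t) := by
  rw [dual, elem_inv]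
  change ((transvection i j (-t)).map σ)ᵀ = _
  ext x y
  simp only [transpose_apply, map_apply, transvection, Matrix.add_apply, Matrix.single_apply,
    Matrix.one_apply, map_add]
  congr 1
  · by_cases h1 : y = x
    · rw [if_pos h1, if_pos h1.symm, map_one]
    · rw [if_neg h1, if_neg (Ne.symm h1), map_zero]
  · by_cases h2 : i = y ∧ j = x
    · rw [if_pos h2, if_pos (And.intro h2.2 h2.1), map_neg]
    · rw [if_neg h2, if_neg (fun h' : j = x ∧ i = y => h2 (And.intro h'.2 h'.1)), map_zero]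

theorem lvm_tv (i j : Fin p) (t s : k) :
    lvm ι (transvection i j t) (transvection j i s) =
      transvection (Sum.inl (Sum.inl i) : Idx p ι) (Sum.inl (Sum.inl j)) t *
        transvection (Sum.inl (Sum.inr j)) (Sum.inl (Sum.inr i)) s := by
  have e1 : transvection (Sum.inl (Sum.inl i) : Idx p ι) (Sum.inl (Sum.inl j)) t *
      transvection (Sum.inl (Sum.inr j)) (Sum.inl (Sum.inr i)) s =
      1 + Matrix.single (Sum.inl (Sum.inl i)) (Sum.inl (Sum.inl j)) t +
        Matrix.single (Sum.inl (Sum.inr j)) (Sum.inl (Sum.inr i)) s := by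
    rw [transvection, transvection, Matrix.add_mul, Matrix.one_mul, Matrix.mul_add,
      Matrix.mul_one, single_mul_single_of_ne _ _ _ _ (by simp)]
    abel
  rw [e1, lvm]
  ext x y
  rcases x with (x | x) | x <;> rcases y with (y | y) | y <;>
    simp [transvection, Matrix.add_apply, Matrix.single_apply, Matrix.one_apply]

theorem lv_elem (hσ : ∀ x, σ (σ x) = x) {i j : Fin p} (h : i ≠ j) (t : k)
    (h1 : (Sum.inl (Sum.inl i) : Idx p ι) ≠ Sum.inl (Sum.inl j))
    (h2 : (Sum.inl (Sum.inr j) : Idx p ι) ≠ Sum.inl (Sum.inr i)) :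
    (lv σ ε J₀ hσ p (elem h t)).1.1 = (root2 h1 h2 t (-σ t)).1 := by
  rw [lv_coe, dual_elem]
  exact lvm_tv i j t (-σ t)

theorem lv_diag (hσ : ∀ x, σ (σ x) = x) {g : SpecialLinearGroup (Fin p) k} {d : Fin p → k}
    (hg : g.1 = Matrix.diagonal d) : (lv σ ε J₀ hσ p g).1.1 =
      Matrix.diagonal (Sum.elim (Sum.elim d fun i => σ (d i)⁻¹) fun _ => 1) := by
  rw [lv_coe, dual, dgn_inv hg, hg, lvm]
  ext x y
  rcases x with (x | x) | x <;> rcases y with (y | y) | y
  · simp [Matrix.diagonal_apply]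
  · simp [Matrix.diagonal_apply]
  · simp [Matrix.diagonal_apply]
  · simp [Matrix.diagonal_apply]
  · simp only [fromBlocks_apply₁₁, fromBlocks_apply₂₂, transpose_apply, map_apply,
      Matrix.diagonal_apply, Sum.inl.injEq, Sum.inr.injEq, Sum.elim_inl, Sum.elim_inr]
    by_cases h : x = y
    · rw [if_pos h, if_pos h.symm, h]
    · rw [if_neg h, if_neg (Ne.symm h), map_zero]
  · simp [Matrix.diagonal_apply]
  · simp [Matrix.diagonal_apply]
  · simp [Matrix.diagonal_apply]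
  · simp [Matrix.diagonal_apply, Matrix.one_apply]

/-- the rows of the Levi block -/
def lRow (hσc : Continuous σ) (hσ : ∀ x, σ (σ x) = x) {i j : Fin p} (h : i ≠ j) :
    RowN (FormGroup σ (hyp p ε J₀)) (Sum.inl (Sum.inl i)) (Sum.inl (Sum.inl j)) where
  up t := lv σ ε J₀ hσ p (elem h t)
  lo t := lv σ ε J₀ hσ p (elem h.symm t)
  cu := (continuous_lv hσc hσ).comp (H701.continuous_elem h)
  cl := (continuous_lv hσc hσ).comp (H701.continuous_elem h.symm)
  u₁ t X := by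
    rw [lv_elem hσ h t (by simpa using h) (by simpa using h.symm)]
    exact r2_row_a _ _ t (-σ t) (by simp) (by simp) X
  u₂ t X := by
    rw [lv_elem hσ h t (by simpa using h) (by simpa using h.symm)]
    exact r2_row_b _ _ t (-σ t) (by simp) X
  l₁ t X := by
    rw [lv_elem hσ h.symm t (by simpa using h.symm) (by simpa using h)]
    exact r2_row_b _ _ t (-σ t) (by simp) X
  l₂ t X := by
    rw [lv_elem hσ h.symm t (by simpa using h.symm) (by simpa using h)]
    exact r2_row_a _ _ t (-σ t) (by simp) (by simp) X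

theorem lv_K (hσc : Continuous σ) (hσ : ∀ x, σ (σ x) = x) {i j : Fin p} (h : i ≠ j) :
    lv σ ε J₀ hσ p '' (slRow (k := k) h).K = (lRow (ε := ε) (J₀ := J₀) hσc hσ h).K := by
  have e : Metric.closedBall (0 : k) 1 = {t : k | ‖t‖ ≤ 1} := by
    ext t
    simp
  rw [H701.RowPair.K, RowN.K, Set.image_union, Set.image_image, Set.image_image, e]
  rfl

end lv

section wallr

variable {ι : Type} [Fintype ι] [DecidableEq ι] {k : Type} [NontriviallyNormedField k]
  {σ : k →+* k} {ε : k} {J₀ : Matrix ι ι k} {m : ℕ}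

theorem dg_eqS (w : k) {i j : Fin m} (hij : i < j) :
    dg m w i.castSucc j.castSucc = dg m w i.castSucc j.succ := by
  have h1 : i.castSucc < j.castSucc := hij
  have h2 : i.castSucc < j.succ := h1.trans (Fin.castSucc_lt_succ (i := j))
  rw [dg_gt m w h1, dg_gt m w h2]

/-- The `j`-th direction of the Levi block. -/
noncomputable def lDir (ε : k) (J₀ : Matrix ι ι k) (hσc : Continuous σ) (hσ : ∀ x, σ (σ x) = x)
    {w : k} (hw1 : 1 < ‖w‖) (hw : w ≠ 0) (j : Fin m) :
    DirG (FormGroup σ (hyp (m + 1) ε J₀)) where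
  i := _
  j := _
  R := lRow hσc hσ (Fin.castSucc_lt_succ (i := j)).ne
  g := lv σ ε J₀ hσ (m + 1) (tor m hw j.castSucc)
  d := _
  hg := lv_diag hσ rfl
  lt := by
    rw [Sum.elim_inl, Sum.elim_inl, Sum.elim_inl, Sum.elim_inl,
      dg_gt m w (Fin.castSucc_lt_succ (i := j)), dg_self, norm_inv, norm_pow]
    have h1 : ‖w‖⁻¹ < 1 := inv_lt_one_of_one_lt₀ hw1
    exact h1.trans_le (one_le_pow₀ hw1.le)

theorem bS_commS (w : kˣ) (i j : Fin m) (N M : ℕ) :
    bS (k := k) w i N * bS w j M = bS w j M * bS w i N :=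
  (tor_comm m (w⁻¹).ne_zero i.castSucc j.castSucc).pow_pow N M

theorem tor_commKS (w : kˣ) {i j : Fin m} (hij : i < j) {x : GG k m} (hx : x ∈ KS k j) :
    Commute (tor m (w⁻¹).ne_zero i.castSucc : GG k m) x := by
  rcases hx with ⟨t, -, rfl⟩ | ⟨t, -, rfl⟩
  · exact tor_elem m (w⁻¹).ne_zero i.castSucc (Fin.castSucc_lt_succ (i := j)).ne (dg_eqS _ hij) t
  · exact tor_elem m (w⁻¹).ne_zero i.castSucc (Fin.castSucc_lt_succ (i := j)).ne.symm
      (dg_eqS _ hij).symm t

theorem bS_commKS (w : kˣ) {i j : Fin m} (hij : i < j) (N : ℕ) {x : GG k m} (hx : x ∈ KS k j) :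
    bS (k := k) w i N * x = x * bS w i N := (tor_commKS w hij hx).pow_left N

variable {P : Type} [Group P] [TopologicalSpace P] {q : ℕ}
  {π : GL (Idx (q + 2) ι) k →* P}
  {E : Type} [Group E] [TopologicalSpace E] [MeasurableSpace E] [BorelSpace E]
  {i₁ : FormGroup σ (hyp (q + 2) ε J₀) →* E} {a : E →* P}

/-- **The nested chains of wall `r`**: `g₀` is scalar on `e_1, .., e_r` and on the dual vectors. -/
theorem chainr [ProperSpace k] (hσc : Continuous σ) (hσ : ∀ x, σ (σ x) = x)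
    (hε : ε * ε = 1) (hσε : σ ε = ε)
    (hker : ∀ z, π z = 1 → ∃ c : k, z.1 = c • (1 : Matrix (Idx (q + 2) ι) (Idx (q + 2) ι) k))
    (hq : IsQuotientMap π) (hι : Continuous i₁) (ha : Continuous a)
    (hcomp : ∀ g : FormGroup σ (hyp (q + 2) ε J₀), a (i₁ g) = π (SpecialLinearGroup.toGL g.1))
    {w : kˣ} (hw1 : ‖(w : k)‖ < 1)
    {g₀ : FormGroup σ (hyp (q + 2) ε J₀)} {d₀ : Idx (q + 2) ι → k}
    (hg₀ : g₀.1.1 = Matrix.diagonal d₀)
    (h1 : ∀ i j : Fin (q + 2), d₀ (Sum.inl (Sum.inl i)) = d₀ (Sum.inl (Sum.inl j)))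
    (h2 : ∀ i j : Fin (q + 2), d₀ (Sum.inl (Sum.inr i)) = d₀ (Sum.inl (Sum.inr j)))
    (hlt : ‖d₀ (Sum.inl (Sum.inr 0))‖ < ‖d₀ (Sum.inl (Sum.inl 0))‖) :
    ∀ g₁ : FormGroup σ (hyp (q + 2) ε J₀), g₁ = g₀ ∨ g₁ = g₀⁻¹ →
    ∃ (b : Fin (q + 2) → ℕ → E) (𝒦 : Fin (q + 2) → Set E),
      H761.GChain (fun K : Set E => IsCompact K) (H261.PingT E) (q + 2) b 𝒦 ∧
      (∀ M, b 0 M = i₁ g₁ ^ M) ∧
      (∀ j M, (i₁.comp (lv σ ε J₀ hσ (q + 2))) (bS w j M) = b j.succ M) ∧
      ∀ j, (i₁.comp (lv σ ε J₀ hσ (q + 2))) '' (KS k (m := q + 1) j) = 𝒦 j.succ := by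
  have hw1' : 1 < ‖((w⁻¹ : kˣ) : k)‖ := by
    rw [Units.val_inv_eq_inv_val, norm_inv]
    exact (one_lt_inv₀ (norm_pos_iff.2 w.ne_zero)).2 hw1
  have hq1 : q + 1 < q + 2 := by omega
  have h0 : ra q ι ⟨q + 1, hq1⟩ = (Sum.inl (Sum.inl ⟨q, by omega⟩) : Idx (q + 2) ι) := by
    unfold ra
    rw [if_pos rfl]
  have h0' : rb q ι ⟨q + 1, hq1⟩ = (Sum.inl (Sum.inr ⟨q + 1, by omega⟩) : Idx (q + 2) ι) := by
    unfold rb
    rw [dif_pos rfl]
  obtain ⟨D₀, hD₀⟩ : ∃ D : DirG (FormGroup σ (hyp (q + 2) ε J₀)), D.g = g₀ :=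
    ⟨{ i := _
       j := _
       R := fRow q J₀ hσc hσ hε hσε ⟨q + 1, hq1⟩
       g := g₀
       d := d₀
       hg := hg₀
       lt := by rw [h0, h0', h1 _ 0, h2 _ 0]; exact hlt }, rfl⟩
  have hcm : ∀ s, Commute g₀ (lv σ ε J₀ hσ (q + 2) s) := comm_lv hσ hg₀ h1 h2
  intro g₁ hg₁
  obtain ⟨D₁, hD₁⟩ : ∃ D : DirG (FormGroup σ (hyp (q + 2) ε J₀)), D.g = g₁ := by
    rcases hg₁ with rfl | rfl
    · exact ⟨D₀, hD₀⟩
    · exact ⟨D₀.inv, by rw [← hD₀]; rfl⟩
  have hcm₁ : ∀ s, Commute D₁.g (lv σ ε J₀ hσ (q + 2) s) := by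
    intro s
    rw [hD₁]
    rcases hg₁ with rfl | rfl
    · exact hcm s
    · exact (hcm s).inv_left
  obtain ⟨b, 𝒦, k1, k2, k3, k4⟩ := gchain_cons hker hq hι ha hcomp D₁ hcm₁
    (fun j : Fin (q + 1) => lDir ε J₀ hσc hσ hw1' (w⁻¹).ne_zero j)
    (gS := fun j => (tor (q + 1) (w⁻¹).ne_zero j.castSucc : GG k (q + 1)))
    (KS := fun j => KS k (m := q + 1) j)
    (fun j => rfl)
    (fun j => lv_K hσc hσ _) (fun i j _ => tor_comm (q + 1) (w⁻¹).ne_zero i.castSucc j.castSucc)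
    (fun i j hij x hx => tor_commKS w hij hx)
  exact ⟨b, 𝒦, k1, fun M => by rw [k2, hD₁], k3, k4⟩

end wallr

end Vale.Agent.P092.H411.S2
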